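import Vale.Agent.Lib.P248.Gen.Corner

open MeasureTheory Set

namespace Vale.Agent.Lib.P248.Gen

/-- The sign change of one coordinate preserves the volume. -/
private theorem gorthant_flip_preserving {m : ℕ} (j : Fin m) :
    MeasurePreserving (fun x : Fin m → ℝ => Function.update x j (-(x j))) volume volume := by
  have h := volume_preserving_pi (α' := fun _ : Fin m => ℝ) (β' := fun _ : Fin m => ℝ)
    (f := fun i => if i = j then Neg.neg else id) (fun i => by
      by_cases hi : i = j
      · simp only [hi, if_true]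
        exact Measure.measurePreserving_neg volume
      · simp only [hi, if_false]
        exact MeasurePreserving.id volume)
  have hfun : (fun x : Fin m → ℝ => Function.update x j (-(x j))) =
      fun (a : Fin m → ℝ) (i : Fin m) => (if i = j then Neg.neg else id) (a i) := by
    funext x i
    by_cases hi : i = j
    · subst hi
      simp
    · simp [hi]
  rw [hfun]
  exact h

/-- A coordinate hyperplane is a null set. -/
private theorem gorthant_hyperplane_null {m : ℕ} (j : Fin m) :
    volume {x : Fin m → ℝ | x j = 0} = 0 := by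
  have hset : {x : Fin m → ℝ | x j = 0} =
      Set.pi Set.univ (fun i => if i = j then ({0} : Set ℝ) else Set.univ) := by
    ext x
    simp only [Set.mem_ofPred_eq, Set.mem_pi, Set.mem_univ, forall_true_left]
    constructor
    · intro h i
      by_cases hi : i = j
      · subst hi
        simp [h]
      · simp [hi]
    · intro h
      have hj := h j
      simpa using hj
  rw [hset, volume_pi_pi]
  exact Finset.prod_eq_zero (Finset.mem_univ j) (by simp)

/-- One step: the part of an invariant measurable set where one more coordinate is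
nonnegative has at most half of the volume. -/
private theorem gorthant_step {m : ℕ} {T : Set (Fin m → ℝ)} (hT : MeasurableSet T)
    (j : Fin m) (hflipT : ∀ x ∈ T, Function.update x j (-(x j)) ∈ T) :
    2 * volume {x | x ∈ T ∧ 0 ≤ x j} ≤ volume T := by
  have hσ := gorthant_flip_preserving j
  have hmj : Measurable fun x : Fin m → ℝ => x j := measurable_pi_apply j
  have hA : MeasurableSet {x : Fin m → ℝ | x ∈ T ∧ 0 < x j} :=
    hT.inter (measurableSet_lt measurable_const hmj)
  have hB : MeasurableSet {x : Fin m → ℝ | x ∈ T ∧ x j < 0} :=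
    hT.inter (measurableSet_lt hmj measurable_const)
  have hsub : (fun x : Fin m → ℝ => Function.update x j (-(x j))) ⁻¹'
      {x : Fin m → ℝ | x ∈ T ∧ 0 < x j} ⊆ {x : Fin m → ℝ | x ∈ T ∧ x j < 0} := by
    intro x hx
    have h1 : Function.update x j (-(x j)) ∈ T := hx.1
    have h2 : 0 < Function.update x j (-(x j)) j := hx.2
    have h3 := hflipT _ h1
    rw [Function.update_self, Function.update_idem, neg_neg, Function.update_eq_self] at h3
    rw [Function.update_self] at h2
    exact ⟨h3, by linarith⟩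
  have hAB : volume {x : Fin m → ℝ | x ∈ T ∧ 0 < x j} ≤
      volume {x : Fin m → ℝ | x ∈ T ∧ x j < 0} := by
    rw [← hσ.measure_preimage hA.nullMeasurableSet]
    exact measure_mono hsub
  have hdisj : Disjoint {x : Fin m → ℝ | x ∈ T ∧ 0 < x j}
      {x : Fin m → ℝ | x ∈ T ∧ x j < 0} := by
    rw [Set.disjoint_left]
    intro x hx1 hx2
    have h1 := hx1.2
    have h2 := hx2.2
    linarith
  have hunion : volume {x : Fin m → ℝ | x ∈ T ∧ 0 < x j} +
      volume {x : Fin m → ℝ | x ∈ T ∧ x j < 0} ≤ volume T := by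
    rw [← measure_union hdisj hB]
    refine measure_mono ?_
    rintro x (hx | hx)
    · exact hx.1
    · exact hx.1
  have hP : volume {x : Fin m → ℝ | x ∈ T ∧ 0 ≤ x j} ≤
      volume {x : Fin m → ℝ | x ∈ T ∧ 0 < x j} := by
    have hsubP : {x : Fin m → ℝ | x ∈ T ∧ 0 ≤ x j} ⊆
        {x : Fin m → ℝ | x ∈ T ∧ 0 < x j} ∪ {x : Fin m → ℝ | x j = 0} := by
      intro x hx
      rcases hx.2.lt_or_eq with h | h
      · exact Or.inl ⟨hx.1, h⟩
      · exact Or.inr h.symm
    calc volume {x : Fin m → ℝ | x ∈ T ∧ 0 ≤ x j}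
        ≤ volume ({x : Fin m → ℝ | x ∈ T ∧ 0 < x j} ∪ {x : Fin m → ℝ | x j = 0}) :=
          measure_mono hsubP
      _ ≤ volume {x : Fin m → ℝ | x ∈ T ∧ 0 < x j} +
          volume {x : Fin m → ℝ | x j = 0} := measure_union_le _ _
      _ = volume {x : Fin m → ℝ | x ∈ T ∧ 0 < x j} := by
          rw [gorthant_hyperplane_null j, add_zero]
  calc 2 * volume {x : Fin m → ℝ | x ∈ T ∧ 0 ≤ x j}
      ≤ 2 * volume {x : Fin m → ℝ | x ∈ T ∧ 0 < x j} := by gcongr
    _ = volume {x : Fin m → ℝ | x ∈ T ∧ 0 < x j} +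
        volume {x : Fin m → ℝ | x ∈ T ∧ 0 < x j} := two_mul _
    _ ≤ volume {x : Fin m → ℝ | x ∈ T ∧ 0 < x j} +
        volume {x : Fin m → ℝ | x ∈ T ∧ x j < 0} := by gcongr
    _ ≤ volume T := hunion

/-- Induction over the set of coordinates required to be nonnegative. -/
private theorem gorthant_finset {m : ℕ} {M : Set (Fin m → ℝ)} (hM : MeasurableSet M)
    (S : Finset (Fin m)) :
    (∀ i ∈ S, ∀ x ∈ M, Function.update x i (-(x i)) ∈ M) →
      (2:ENNReal) ^ S.card * volume {x | x ∈ M ∧ ∀ i ∈ S, 0 ≤ x i} ≤ volume M := by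
  classical
  induction S using Finset.induction_on with
  | empty =>
    intro _
    simp
  | insert j S hj ih =>
    intro hflip
    have hflip' : ∀ i ∈ S, ∀ x ∈ M, Function.update x i (-(x i)) ∈ M :=
      fun i hi => hflip i (Finset.mem_insert_of_mem hi)
    have hT : MeasurableSet {x : Fin m → ℝ | x ∈ M ∧ ∀ i ∈ S, 0 ≤ x i} := by
      have hset : {x : Fin m → ℝ | x ∈ M ∧ ∀ i ∈ S, 0 ≤ x i} =
          M ∩ ⋂ i ∈ S, {x : Fin m → ℝ | 0 ≤ x i} := by
        ext x
        simp
      rw [hset]
      exact hM.inter (Finset.measurableSet_biInter S fun i _ =>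
        measurableSet_le measurable_const (measurable_pi_apply i))
    have hflipT : ∀ x ∈ {x : Fin m → ℝ | x ∈ M ∧ ∀ i ∈ S, 0 ≤ x i},
        Function.update x j (-(x j)) ∈ {x : Fin m → ℝ | x ∈ M ∧ ∀ i ∈ S, 0 ≤ x i} := by
      intro x hx
      refine ⟨hflip j (Finset.mem_insert_self j S) x hx.1, fun i hi => ?_⟩
      have hij : i ≠ j := fun h => hj (h ▸ hi)
      rw [Function.update_of_ne hij]
      exact hx.2 i hi
    have hstep := gorthant_step hT j hflipT
    have hset : {x : Fin m → ℝ | x ∈ M ∧ ∀ i ∈ insert j S, 0 ≤ x i} =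
        {x | x ∈ {x : Fin m → ℝ | x ∈ M ∧ ∀ i ∈ S, 0 ≤ x i} ∧ 0 ≤ x j} := by
      ext x
      simp only [Finset.mem_insert, Set.mem_ofPred_eq, forall_eq_or_imp]
      tauto
    rw [Finset.card_insert_of_notMem hj, hset, pow_succ, mul_assoc]
    exact le_trans (by gcongr) (ih hflip')

/-- A set invariant under the sign changes of the coordinates in `S` has at least `2^|S|` times
the volume of its part where these coordinates are nonnegative. -/
theorem gorthant_vol_le {m : ℕ} (S : Finset (Fin m)) {M : Set (Fin m → ℝ)}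
    (hM : MeasurableSet M) (hfin : volume M ≠ ⊤)
    (hflip : ∀ i ∈ S, ∀ x ∈ M, Function.update x i (-(x i)) ∈ M) :
    (2:ℝ) ^ S.card * vol {x | x ∈ M ∧ ∀ i ∈ S, 0 ≤ x i} ≤ vol M := by
  have h := gorthant_finset hM S hflip
  have h2 := ENNReal.toReal_mono hfin h
  rw [ENNReal.toReal_mul, ENNReal.toReal_pow] at h2
  simpa [vol] using h2

end Vale.Agent.Lib.P248.Gen
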