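import Vale.Agent.Lib.P248.Gen.Corner

open MeasureTheory Set

namespace Vale.Agent.Lib.P248.Gen

variable {m : ℕ} {K : Set (Fin m → ℝ)}

/-- The polar with respect to a point of the fixed subspace inherits the symmetries. -/
theorem gpolarAt_flip (S : Finset (Fin m))
    (hflip : ∀ i ∈ S, ∀ x ∈ K, Function.update x i (-(x i)) ∈ K)
    {z : Fin m → ℝ} (hz0 : ∀ i ∈ S, z i = 0) :
    ∀ i ∈ S, ∀ y ∈ polarAt K z, Function.update y i (-(y i)) ∈ polarAt K z := by
  intro i hi y hy x hx
  have hx' := hy _ (hflip i hi x hx)
  have e : ∑ j, Function.update y i (-(y i)) j * (x j - z j)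
      = ∑ j, y j * (Function.update x i (-(x i)) j - z j) := by
    refine Finset.sum_congr rfl (fun j _ => ?_)
    by_cases hj : j = i
    · subst hj
      rw [Function.update_self, Function.update_self, hz0 j hi]
      ring
    · rw [Function.update_of_ne hj, Function.update_of_ne hj]
  rw [e]
  exact hx'

/-- Invariance under the sign changes of single coordinates gives invariance under the sign
changes of finitely many coordinates. -/
theorem Polar_flip_finset (S : Finset (Fin m))
    (hflip : ∀ i ∈ S, ∀ x ∈ K, Function.update x i (-(x i)) ∈ K)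
    (T : Finset (Fin m)) (hT : ∀ j ∈ T, j ∈ S) (x : Fin m → ℝ) (hx : x ∈ K) :
    (fun j => if j ∈ T then -(x j) else x j) ∈ K := by
  induction T using Finset.induction_on with
  | empty =>
    have e : (fun j => if j ∈ (∅ : Finset (Fin m)) then -(x j) else x j) = x := by
      funext j
      simp
    rw [e]
    exact hx
  | insert a T ha ih =>
    have h1 := ih (fun j hj => hT j (Finset.mem_insert_of_mem hj))
    have h2 := hflip a (hT a (Finset.mem_insert_self a T)) _ h1
    have e : Function.update (fun j => if j ∈ T then -(x j) else x j) a
        (-((fun j => if j ∈ T then -(x j) else x j) a))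
        = (fun j => if j ∈ insert a T then -(x j) else x j) := by
      funext j
      by_cases hj : j = a
      · subst hj
        rw [Function.update_self]
        simp [ha]
      · rw [Function.update_of_ne hj]
        simp [Finset.mem_insert, hj]
    rw [e] at h2
    exact h2

/-- The part of the polar with nonnegative symmetric coordinates is the dual corner of the
corresponding part of the body. -/
theorem gpolarAt_pos_eq (S : Finset (Fin m))
    (hflip : ∀ i ∈ S, ∀ x ∈ K, Function.update x i (-(x i)) ∈ K)
    {z : Fin m → ℝ} (hz0 : ∀ i ∈ S, z i = 0) :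
    {y | y ∈ polarAt K z ∧ ∀ i ∈ S, 0 ≤ y i} = gdual S (gcornerOf S K z) := by
  ext y
  simp only [Set.mem_ofPred_eq, gdual, gcornerOf, polarAt]
  constructor
  · rintro ⟨hy, hpos⟩
    refine ⟨hpos, fun x hx => ?_⟩
    have h1 := hy (x + z) hx.1
    have e : ∑ i, y i * ((x + z) i - z i) = ∑ i, x i * y i := by
      refine Finset.sum_congr rfl (fun i _ => ?_)
      rw [Pi.add_apply]
      ring
    rw [e] at h1
    exact h1
  · rintro ⟨hpos, hy⟩
    refine ⟨fun x hx => ?_, hpos⟩
    obtain ⟨T, hT⟩ : ∃ T : Finset (Fin m),
        T = Finset.univ.filter (fun j : Fin m => j ∈ S ∧ x j < 0) := ⟨_, rfl⟩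
    have hmem : ∀ j, j ∈ T ↔ (j ∈ S ∧ x j < 0) := by
      intro j
      rw [hT, Finset.mem_filter]
      simp
    have habs : (fun j => if j ∈ T then -(x j) else x j) ∈ K :=
      Polar_flip_finset S hflip T (fun j hj => ((hmem j).mp hj).1) x hx
    have hcorner : (fun j => (if j ∈ T then -(x j) else x j) - z j) + z ∈ K ∧
        ∀ i ∈ S, 0 ≤ (fun j => (if j ∈ T then -(x j) else x j) - z j) i := by
      constructor
      · have e : (fun j => (if j ∈ T then -(x j) else x j) - z j) + z
            = (fun j => if j ∈ T then -(x j) else x j) := by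
          funext j
          simp
        rw [e]
        exact habs
      · intro i hi
        show 0 ≤ (if i ∈ T then -(x i) else x i) - z i
        rw [hz0 i hi, sub_zero]
        by_cases h : i ∈ T
        · rw [if_pos h]
          have h3 := ((hmem i).mp h).2
          linarith
        · rw [if_neg h]
          by_contra hcon
          push Not at hcon
          exact h ((hmem i).mpr ⟨hi, hcon⟩)
    have h1 := hy _ hcorner
    calc ∑ i, y i * (x i - z i)
        ≤ ∑ i, (fun j => (if j ∈ T then -(x j) else x j) - z j) i * y i := by
          refine Finset.sum_le_sum (fun i _ => ?_)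
          show y i * (x i - z i) ≤ ((if i ∈ T then -(x i) else x i) - z i) * y i
          by_cases hi : i ∈ S
          · have hyi := hpos i hi
            rw [hz0 i hi, sub_zero, sub_zero]
            by_cases h : i ∈ T
            · rw [if_pos h]
              have h3 := ((hmem i).mp h).2
              nlinarith [mul_nonneg hyi (neg_nonneg.mpr h3.le)]
            · rw [if_neg h]
              exact le_of_eq (mul_comm _ _)
          · have h0 : i ∉ T := fun h => hi ((hmem i).mp h).1
            rw [if_neg h0]
            exact le_of_eq (mul_comm _ _)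
      _ ≤ 1 := h1

end Vale.Agent.Lib.P248.Gen
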