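import Vale.Agent.Lib.P248.Gen.Orthant

open MeasureTheory Set

namespace Vale.Agent.Lib.P248.Gen

variable {m : ℕ} {K : Set (Fin m → ℝ)}

/-- The translate of a set invariant under the sign changes of the coordinates in `S`, by a
point whose coordinates in `S` vanish, is invariant under these sign changes. -/
private lemma PolarCorner_flip_shift (S : Finset (Fin m))
    (hflip : ∀ i ∈ S, ∀ x ∈ K, Function.update x i (-(x i)) ∈ K)
    {z : Fin m → ℝ} (hz0 : ∀ i ∈ S, z i = 0) :
    ∀ i ∈ S, ∀ x ∈ {x : Fin m → ℝ | x + z ∈ K},
      Function.update x i (-(x i)) ∈ {x : Fin m → ℝ | x + z ∈ K} := by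
  intro i hi x hx
  have h := hflip i hi (x + z) hx
  have e : Function.update x i (-(x i)) + z = Function.update (x + z) i (-((x + z) i)) := by
    funext j
    by_cases hj : j = i
    · rw [hj]
      simp [hz0 i hi]
    · simp [Function.update_of_ne hj]
  show Function.update x i (-(x i)) + z ∈ K
  rw [e]
  exact h

/-- The translate of a convex set is convex. -/
private lemma PolarCorner_convex_shift (hc : Convex ℝ K) (z : Fin m → ℝ) :
    Convex ℝ {x : Fin m → ℝ | x + z ∈ K} := by
  intro x hx y hy a b ha hb hab
  have h := hc hx hy ha hb hab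
  have e : a • x + b • y + z = a • (x + z) + b • (y + z) := by
    funext j
    simp only [Pi.add_apply, Pi.smul_apply, smul_eq_mul]
    linear_combination (-(z j)) * hab
  show a • x + b • y + z ∈ K
  rw [e]
  exact h

/-- In a convex set invariant under the sign change of the coordinate `i`, the coordinate `i`
of a point may be decreased towards zero. -/
private lemma PolarCorner_seg {M : Set (Fin m → ℝ)} (hc : Convex ℝ M) (i : Fin m)
    (hflip : ∀ x ∈ M, Function.update x i (-(x i)) ∈ M) {w : Fin m → ℝ} (hw : w ∈ M)
    {c : ℝ} (h0 : 0 ≤ c) (h1 : c ≤ w i) : Function.update w i c ∈ M := by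
  rcases (le_trans h0 h1).eq_or_lt with hwi | hwi
  · have hc0 : c = w i := le_antisymm h1 (by rw [← hwi]; exact h0)
    rw [hc0, Function.update_eq_self]
    exact hw
  · have hne : w i ≠ 0 := hwi.ne'
    have ht0 : 0 ≤ c / w i := div_nonneg h0 hwi.le
    have ht1 : c / w i ≤ 1 := (div_le_one hwi).mpr h1
    have ha : 0 ≤ (1 + c / w i) / 2 := by linarith
    have hb : 0 ≤ (1 - c / w i) / 2 := by linarith
    have hab : (1 + c / w i) / 2 + (1 - c / w i) / 2 = 1 := by ring
    have hmem : ((1 + c / w i) / 2) • w + ((1 - c / w i) / 2) • Function.update w i (-(w i))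
        ∈ M := hc hw (hflip w hw) ha hb hab
    have e : ((1 + c / w i) / 2) • w + ((1 - c / w i) / 2) • Function.update w i (-(w i))
        = Function.update w i c := by
      funext j
      by_cases hj : j = i
      · rw [hj]
        simp only [Pi.add_apply, Pi.smul_apply, smul_eq_mul, Function.update_self]
        field_simp
        ring
      · simp only [Pi.add_apply, Pi.smul_apply, smul_eq_mul, Function.update_of_ne hj]
        ring
    rw [← e]
    exact hmem

/-- In a convex set invariant under the sign changes of the coordinates in `S`, these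
coordinates of a point may be decreased towards zero. -/
private lemma PolarCorner_down {M : Set (Fin m → ℝ)} (hc : Convex ℝ M) (S : Finset (Fin m))
    (hflip : ∀ i ∈ S, ∀ x ∈ M, Function.update x i (-(x i)) ∈ M)
    {x y : Fin m → ℝ} (hx : x ∈ M) (hy0 : ∀ i, i ∉ S → y i = x i)
    (hy : ∀ i ∈ S, 0 ≤ y i ∧ y i ≤ x i) : y ∈ M := by
  have key : ∀ T : Finset (Fin m),
      (fun i : Fin m => if i ∈ T then y i else x i) ∈ M := by
    intro T
    induction T using Finset.induction_on with
    | empty =>
      have e : (fun i : Fin m => if i ∈ (∅ : Finset (Fin m)) then y i else x i)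
          = x := by
        funext i
        simp
      rw [e]
      exact hx
    | insert i T hi ih =>
      have e : (fun j : Fin m => if j ∈ insert i T then y j else x j)
          = Function.update (fun j : Fin m => if j ∈ T then y j else x j) i (y i) := by
        funext j
        by_cases hj : j = i
        · rw [hj]
          simp
        · simp [Finset.mem_insert, hj]
      rw [e]
      by_cases h0 : i ∈ S
      · apply PolarCorner_seg hc i (hflip i h0) ih (hy i h0).1
        show y i ≤ if i ∈ T then y i else x i
        rw [if_neg hi]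
        exact (hy i h0).2
      · have e3 : Function.update (fun j : Fin m => if j ∈ T then y j else x j) i (y i)
            = fun j : Fin m => if j ∈ T then y j else x j := by
          funext j
          by_cases hj : j = i
          · rw [hj, Function.update_self]
            show y i = if i ∈ T then y i else x i
            rw [if_neg hi]
            exact hy0 i h0
          · rw [Function.update_of_ne hj]
        rw [e3]
        exact ih
  have e : (fun i : Fin m => if i ∈ (Finset.univ : Finset (Fin m)) then y i else x i)
      = y := by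
    funext i
    simp
  rw [← e]
  exact key Finset.univ

/-- The part of a symmetric convex body (translated to a point of the fixed subspace) with
nonnegative symmetric coordinates is a corner. -/
theorem gcorner_gcornerOf (hK : IsCompact K) (hc : Convex ℝ K) (S : Finset (Fin m))
    (hflip : ∀ i ∈ S, ∀ x ∈ K, Function.update x i (-(x i)) ∈ K)
    {z : Fin m → ℝ} (hz0 : ∀ i ∈ S, z i = 0) (hz : z ∈ interior K) :
    GCorner S (gcornerOf S K z) := by
  have hMc : Convex ℝ {x : Fin m → ℝ | x + z ∈ K} := PolarCorner_convex_shift hc z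
  have hMf := PolarCorner_flip_shift S hflip hz0
  refine ⟨?_, ?_, ?_, ?_, ?_, ?_⟩
  · have h1 : IsClosed {x : Fin m → ℝ | x + z ∈ K} :=
      hK.isClosed.preimage (continuous_id.add continuous_const)
    have h2 : IsClosed {x : Fin m → ℝ | ∀ i ∈ S, 0 ≤ x i} := by
      have e : {x : Fin m → ℝ | ∀ i ∈ S, 0 ≤ x i}
          = ⋂ i : Fin m, ⋂ (_ : i ∈ S), {x | 0 ≤ x i} := by
        ext x
        simp
      rw [e]
      exact isClosed_iInter fun i => isClosed_iInter fun _ =>
        isClosed_le continuous_const (continuous_apply i)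
    exact h1.inter h2
  · intro x hx y hy a b ha hb hab
    refine ⟨hMc hx.1 hy.1 ha hb hab, fun i hi => ?_⟩
    have h1 := hx.2 i hi
    have h2 := hy.2 i hi
    simp only [Pi.add_apply, Pi.smul_apply, smul_eq_mul]
    exact add_nonneg (mul_nonneg ha h1) (mul_nonneg hb h2)
  · obtain ⟨R0, hR0⟩ := hK.isBounded.exists_norm_le
    refine ⟨R0 + ‖z‖, fun x hx i => ?_⟩
    have h1 : ‖x + z‖ ≤ R0 := hR0 _ hx.1
    have h2 : |(x + z) i| ≤ ‖x + z‖ := by
      have h := norm_le_pi_norm (x + z) i
      rwa [Real.norm_eq_abs] at h
    have h3 : |z i| ≤ ‖z‖ := by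
      have h := norm_le_pi_norm z i
      rwa [Real.norm_eq_abs] at h
    have h4 : x i = (x + z) i - z i := by simp
    rw [h4]
    have h5 : |(x + z) i - z i| ≤ |(x + z) i| + |z i| := abs_sub _ _
    linarith
  · exact fun x hx => hx.2
  · intro x hx y hy0 hy
    exact ⟨PolarCorner_down hMc S hMf hx.1 hy0 hy, fun i hi => (hy i hi).1⟩
  · obtain ⟨ε, hε, hball⟩ := Metric.mem_nhds_iff.mp (mem_interior_iff_mem_nhds.mp hz)
    refine ⟨ε / 2, by positivity, fun y hy hy0 => ⟨hball ?_, hy0⟩⟩
    rw [Metric.mem_ball, dist_eq_norm]
    have e : y + z - z = y := by abel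
    rw [e]
    have h1 : ‖y‖ ≤ ε / 2 := (pi_norm_le_iff_of_nonneg (by positivity)).mpr
      (fun i => by rw [Real.norm_eq_abs]; exact hy i)
    linarith

/-- The volume of that part, in terms of `K`. -/
theorem vol_gcornerOf_le (hK : IsCompact K) (S : Finset (Fin m))
    (hflip : ∀ i ∈ S, ∀ x ∈ K, Function.update x i (-(x i)) ∈ K)
    {z : Fin m → ℝ} (hz0 : ∀ i ∈ S, z i = 0) :
    (2:ℝ) ^ S.card * vol (gcornerOf S K z) ≤ vol K := by
  have hMm : MeasurableSet {x : Fin m → ℝ | x + z ∈ K} :=
    (hK.isClosed.preimage (continuous_id.add continuous_const)).measurableSet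
  have hvol : volume {x : Fin m → ℝ | x + z ∈ K} = volume K :=
    measure_preimage_add_right volume z K
  have hfin : volume {x : Fin m → ℝ | x + z ∈ K} ≠ ⊤ := by
    rw [hvol]
    exact hK.measure_lt_top.ne
  have h := gorthant_vol_le S hMm hfin (PolarCorner_flip_shift S hflip hz0)
  have e : vol {x : Fin m → ℝ | x + z ∈ K} = vol K := by
    unfold vol
    rw [hvol]
  rw [e] at h
  exact h

end Vale.Agent.Lib.P248.Gen
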