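import Vale.Agent.Lib.P248.Gen.Corner

open MeasureTheory Set

namespace Vale.Agent.Lib.P248.Gen

/-- Dimension zero: both sets are the one-point space, of volume one. -/
theorem gcorner_base0 (S : Finset (Fin 0)) (C : Set (Fin 0 → ℝ)) (hC : GCorner S C) :
    1 ≤ vol C * vol (gdual S C) := by
  obtain ⟨r, hr, hbox⟩ := hC.box
  have hCu : C = univ :=
    Set.eq_univ_of_forall (fun y => hbox y (fun i => i.elim0) (fun i _ => i.elim0))
  have hDu : gdual S C = univ := by
    refine Set.eq_univ_of_forall (fun y => ⟨fun i _ => i.elim0, fun x _ => ?_⟩)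
    rw [Finset.univ_eq_empty, Finset.sum_empty]
    exact zero_le_one
  have hvol : volume (univ : Set (Fin 0 → ℝ)) = 1 := by
    have h := MeasureTheory.Measure.pi_univ (fun _ : Fin 0 => (volume : Measure ℝ))
    rw [Finset.univ_eq_empty, Finset.prod_empty] at h
    exact h
  rw [hDu, hCu]
  unfold vol
  rw [hvol]
  simp

end Vale.Agent.Lib.P248.Gen
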