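import Vale.Agent.Lib.P248.Gen.Corner

open MeasureTheory Set

namespace Vale.Agent.Lib.P248.Gen

variable {m : ℕ} {C : Set (Fin (m+1) → ℝ)}

/-- Coordinate `0` of the inserted point. -/
private theorem freeProj_insert_same (t : ℝ) (g : Fin m → ℝ) :
    ((0 : Fin (m+1)).insertNth t g : Fin (m+1) → ℝ) 0 = t :=
  Fin.insertNth_apply_same (α := fun _ => ℝ) (0 : Fin (m+1)) t g

/-- The other coordinates of the inserted point. -/
private theorem freeProj_insert_succAbove (t : ℝ) (g : Fin m → ℝ) (k : Fin m) :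
    ((0 : Fin (m+1)).insertNth t g : Fin (m+1) → ℝ) ((0 : Fin (m+1)).succAbove k) = g k :=
  Fin.insertNth_apply_succAbove (α := fun _ => ℝ) (0 : Fin (m+1)) t g k

/-- The pairing with an inserted point. -/
private theorem freeProj_sum (x : Fin (m+1) → ℝ) (t : ℝ) (g : Fin m → ℝ) :
    ∑ j, x j * ((0 : Fin (m+1)).insertNth t g : Fin (m+1) → ℝ) j
      = x 0 * t + ∑ k, x ((0 : Fin (m+1)).succAbove k) * g k := by
  rw [Fin.sum_univ_succAbove _ (0 : Fin (m+1))]
  simp only [freeProj_insert_same, freeProj_insert_succAbove]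

/-- A point with vanishing coordinate `0` is the inserted point of its other coordinates. -/
private theorem freeProj_insert_tail (w : Fin (m+1) → ℝ) (hw : w 0 = 0) :
    ((0 : Fin (m+1)).insertNth (0 : ℝ) (fun k => w ((0 : Fin (m+1)).succAbove k))
      : Fin (m+1) → ℝ) = w := by
  funext j
  rcases eq_or_ne j 0 with rfl | hj
  · rw [freeProj_insert_same, hw]
  · obtain ⟨k, rfl⟩ := Fin.exists_succAbove_eq hj
    rw [freeProj_insert_succAbove]

/-- The section of a corner without symmetric coordinates by `x 0 = 0` is again one. -/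
theorem gcorner_facet_free (hC : GCorner ∅ C) : GCorner ∅ (gfacet C 0) := by
  refine ⟨?_, ?_, ?_, ?_, ?_, ?_⟩
  · have hcont : Continuous
        (fun g : Fin m → ℝ => ((0 : Fin (m+1)).insertNth (0 : ℝ) g : Fin (m+1) → ℝ)) := by
      refine continuous_pi (fun j => ?_)
      rcases eq_or_ne j 0 with rfl | hj
      · simp only [freeProj_insert_same]
        exact continuous_const
      · obtain ⟨k, rfl⟩ := Fin.exists_succAbove_eq hj
        simp only [freeProj_insert_succAbove]
        exact continuous_apply k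
    exact hC.closed.preimage hcont
  · intro g hg g' hg' a b ha hb hab
    have e : ((0 : Fin (m+1)).insertNth (0 : ℝ) (a • g + b • g') : Fin (m+1) → ℝ)
        = a • ((0 : Fin (m+1)).insertNth (0 : ℝ) g : Fin (m+1) → ℝ)
          + b • ((0 : Fin (m+1)).insertNth (0 : ℝ) g') := by
      funext j
      rcases eq_or_ne j 0 with rfl | hj
      · simp only [freeProj_insert_same, Pi.add_apply, Pi.smul_apply, smul_eq_mul, mul_zero,
          add_zero]
      · obtain ⟨k, rfl⟩ := Fin.exists_succAbove_eq hj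
        simp only [freeProj_insert_succAbove, Pi.add_apply, Pi.smul_apply, smul_eq_mul]
    show ((0 : Fin (m+1)).insertNth (0 : ℝ) (a • g + b • g') : Fin (m+1) → ℝ) ∈ C
    rw [e]
    exact hC.convex hg hg' ha hb hab
  · obtain ⟨R, hR⟩ := hC.bdd
    refine ⟨R, fun g hg k => ?_⟩
    have h := hR _ hg ((0 : Fin (m+1)).succAbove k)
    rwa [freeProj_insert_succAbove] at h
  · intro g _ k hk
    exact absurd hk (Finset.notMem_empty k)
  · intro g hg g' h0 _
    have e : g' = g := funext (fun k => h0 k (Finset.notMem_empty k))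
    rw [e]
    exact hg
  · obtain ⟨r, hr, hbox⟩ := hC.box
    refine ⟨r, hr, fun g hg _ => ?_⟩
    show ((0 : Fin (m+1)).insertNth (0 : ℝ) g : Fin (m+1) → ℝ) ∈ C
    refine hbox _ ?_ ?_
    · intro j
      rcases eq_or_ne j 0 with rfl | hj
      · rw [freeProj_insert_same, abs_zero]
        exact hr.le
      · obtain ⟨k, rfl⟩ := Fin.exists_succAbove_eq hj
        rw [freeProj_insert_succAbove]
        exact hg k
    · intro j hj
      exact absurd hj (Finset.notMem_empty j)

/-- The two sided comparison: for points `u`, `v` of the corner on the two sides of the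
hyperplane `x 0 = 0`, the lower bound coming from `u` is at most the upper bound coming from
`v`. -/
private theorem freeProj_cross (hC : GCorner ∅ C) (g : Fin m → ℝ)
    (hg : g ∈ gdual ∅ (gfacet C 0)) (u v : Fin (m+1) → ℝ) (hu : u ∈ C) (hv : v ∈ C)
    (hu0 : u 0 < 0) (hv0 : 0 < v 0) :
    0 ≤ v 0 * (1 - ∑ k, u ((0 : Fin (m+1)).succAbove k) * g k)
      + (-(u 0)) * (1 - ∑ k, v ((0 : Fin (m+1)).succAbove k) * g k) := by
  have hD : 0 < v 0 - u 0 := by linarith
  set a : ℝ := v 0 / (v 0 - u 0) with ha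
  set b : ℝ := -(u 0) / (v 0 - u 0) with hb
  have ha0 : 0 ≤ a := div_nonneg hv0.le hD.le
  have hb0 : 0 ≤ b := div_nonneg (by linarith) hD.le
  have hab : a + b = 1 := by
    rw [ha, hb, ← add_div]
    exact div_eq_one_iff_eq (ne_of_gt hD) |>.mpr (by ring)
  have hw : a • u + b • v ∈ C := hC.convex hu hv ha0 hb0 hab
  have hw0 : (a • u + b • v) 0 = 0 := by
    simp only [Pi.add_apply, Pi.smul_apply, smul_eq_mul]
    rw [ha, hb]
    field_simp
    ring
  have hmem : (fun k => (a • u + b • v) ((0 : Fin (m+1)).succAbove k)) ∈ gfacet C 0 := by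
    show ((0 : Fin (m+1)).insertNth (0 : ℝ)
      (fun k => (a • u + b • v) ((0 : Fin (m+1)).succAbove k)) : Fin (m+1) → ℝ) ∈ C
    rw [freeProj_insert_tail _ hw0]
    exact hw
  have hle := hg.2 _ hmem
  have hlin : ∑ k, (a • u + b • v) ((0 : Fin (m+1)).succAbove k) * g k
      = a * ∑ k, u ((0 : Fin (m+1)).succAbove k) * g k
        + b * ∑ k, v ((0 : Fin (m+1)).succAbove k) * g k := by
    rw [Finset.mul_sum, Finset.mul_sum, ← Finset.sum_add_distrib]
    refine Finset.sum_congr rfl (fun k _ => ?_)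
    simp only [Pi.add_apply, Pi.smul_apply, smul_eq_mul]
    ring
  rw [hlin] at hle
  -- `a * (1 - φ u) + b * (1 - φ v) ≥ 0`, then multiply by `v 0 - u 0`
  have h1 : 0 ≤ a * (1 - ∑ k, u ((0 : Fin (m+1)).succAbove k) * g k)
      + b * (1 - ∑ k, v ((0 : Fin (m+1)).succAbove k) * g k) := by
    nlinarith
  have h2 : v 0 * (1 - ∑ k, u ((0 : Fin (m+1)).succAbove k) * g k)
      + (-(u 0)) * (1 - ∑ k, v ((0 : Fin (m+1)).succAbove k) * g k)
      = (v 0 - u 0) * (a * (1 - ∑ k, u ((0 : Fin (m+1)).succAbove k) * g k)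
        + b * (1 - ∑ k, v ((0 : Fin (m+1)).succAbove k) * g k)) := by
    rw [ha, hb]
    field_simp
  rw [h2]
  exact mul_nonneg hD.le h1

/-- The projection of the polar along the coordinate `0` is the polar of the section
`x 0 = 0`. -/
theorem proj_gdual (hC : GCorner ∅ C) :
    {g : Fin m → ℝ | ∃ t : ℝ, (0 : Fin (m+1)).insertNth t g ∈ gdual ∅ C} =
      gdual ∅ (gfacet C 0) := by
  ext g
  constructor
  · rintro ⟨t, ht⟩
    refine ⟨fun k hk => absurd hk (Finset.notMem_empty k), fun h hh => ?_⟩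
    have hh' : ((0 : Fin (m+1)).insertNth (0 : ℝ) h : Fin (m+1) → ℝ) ∈ C := hh
    have h1 := ht.2 _ hh'
    rw [freeProj_sum] at h1
    simp only [freeProj_insert_same, freeProj_insert_succAbove, zero_mul, zero_add] at h1
    exact h1
  · intro hg
    -- the pairing of the other coordinates with `g`
    obtain ⟨r, hr, hbox⟩ := hC.box
    -- the two box points on the axis `0`
    have hp : Function.update (0 : Fin (m+1) → ℝ) 0 r ∈ C := by
      refine hbox _ (fun j => ?_) (fun j hj => absurd hj (Finset.notMem_empty j))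
      rcases eq_or_ne j 0 with rfl | hj
      · rw [Function.update_self, abs_of_pos hr]
      · rw [Function.update_of_ne hj, Pi.zero_apply, abs_zero]
        exact hr.le
    have hq : Function.update (0 : Fin (m+1) → ℝ) 0 (-r) ∈ C := by
      refine hbox _ (fun j => ?_) (fun j hj => absurd hj (Finset.notMem_empty j))
      rcases eq_or_ne j 0 with rfl | hj
      · rw [Function.update_self, abs_neg, abs_of_pos hr]
      · rw [Function.update_of_ne hj, Pi.zero_apply, abs_zero]
        exact hr.le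
    have hp0 : (Function.update (0 : Fin (m+1) → ℝ) 0 r) 0 = r := Function.update_self _ _ _
    have hq0 : (Function.update (0 : Fin (m+1) → ℝ) 0 (-r)) 0 = -r := Function.update_self _ _ _
    -- the set of lower bounds for `t`
    set A : Set ℝ := (fun u : Fin (m+1) → ℝ =>
        -(1 - ∑ k, u ((0 : Fin (m+1)).succAbove k) * g k) / (-(u 0))) '' {u | u ∈ C ∧ u 0 < 0}
      with hA
    have hAne : A.Nonempty :=
      ⟨_, ⟨_, ⟨hq, by rw [hq0]; linarith⟩, rfl⟩⟩
    -- every element of `A` is below the bound of every point on the other side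
    have hAle : ∀ v : Fin (m+1) → ℝ, v ∈ C → 0 < v 0 → ∀ s ∈ A,
        s ≤ (1 - ∑ k, v ((0 : Fin (m+1)).succAbove k) * g k) / v 0 := by
      rintro v hv hv0 s ⟨u, ⟨hu, hu0⟩, rfl⟩
      have hcross := freeProj_cross hC g hg u v hu hv hu0 hv0
      have hu0' : 0 < -(u 0) := by linarith
      rw [div_le_div_iff₀ hu0' hv0]
      linarith
    have hAbdd : BddAbove A :=
      ⟨_, fun s hs => hAle _ hp (by rw [hp0]; exact hr) s hs⟩
    refine ⟨sSup A, fun k hk => absurd hk (Finset.notMem_empty k), fun x hx => ?_⟩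
    rw [freeProj_sum]
    rcases lt_trichotomy (x 0) 0 with hx0 | hx0 | hx0
    · -- `x 0 < 0`
      have hmemA : -(1 - ∑ k, x ((0 : Fin (m+1)).succAbove k) * g k) / (-(x 0)) ∈ A :=
        ⟨x, ⟨hx, hx0⟩, rfl⟩
      have h1 := le_csSup hAbdd hmemA
      have hx0' : 0 < -(x 0) := by linarith
      rw [div_le_iff₀ hx0'] at h1
      linarith
    · -- `x 0 = 0`
      have hmem : (fun k => x ((0 : Fin (m+1)).succAbove k)) ∈ gfacet C 0 := by
        show ((0 : Fin (m+1)).insertNth (0 : ℝ)
          (fun k => x ((0 : Fin (m+1)).succAbove k)) : Fin (m+1) → ℝ) ∈ C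
        rw [freeProj_insert_tail _ hx0]
        exact hx
      have h1 := hg.2 _ hmem
      rw [hx0, zero_mul, zero_add]
      exact h1
    · -- `0 < x 0`
      have h1 : sSup A ≤ (1 - ∑ k, x ((0 : Fin (m+1)).succAbove k) * g k) / x 0 :=
        csSup_le hAne (hAle x hx hx0)
      rw [le_div_iff₀ hx0] at h1
      linarith

end Vale.Agent.Lib.P248.Gen
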