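import Vale.Agent.Lib.P248.Gen.FreeCone
import Vale.Agent.Lib.P248.Gen.FreeProj
import Vale.Agent.Lib.P248.Gen.FreeFiber

open MeasureTheory Set

namespace Vale.Agent.Lib.P248.Gen

/-- A corner is compact. -/
private theorem StepF_isCompact {m : ℕ} {S : Finset (Fin m)} {C : Set (Fin m → ℝ)}
    (hC : GCorner S C) : IsCompact C := by
  obtain ⟨R, hR⟩ := hC.bdd
  refine IsCompact.of_isClosed_subset
    (isCompact_Icc (a := fun _ : Fin m => -R) (b := fun _ : Fin m => R)) hC.closed ?_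
  intro x hx
  exact ⟨fun i => (abs_le.mp (hR x hx i)).1, fun i => (abs_le.mp (hR x hx i)).2⟩

/-- The pairing with a point of the axis of the coordinate `0`. -/
private theorem StepF_axis_sum {m : ℕ} (x : Fin (m+1) → ℝ) (t : ℝ) :
    ∑ i, x i * ((0 : Fin (m+1)).insertNth t (0 : Fin m → ℝ) : Fin (m+1) → ℝ) i = x 0 * t := by
  rw [Fin.sum_univ_succ]
  simp

/-- The coordinates of a point of the axis of the coordinate `0`. -/
private theorem StepF_axis_abs {m : ℕ} (t : ℝ) (i : Fin (m+1)) :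
    |((0 : Fin (m+1)).insertNth t (0 : Fin m → ℝ) : Fin (m+1) → ℝ) i| ≤ |t| := by
  induction i using Fin.cases with
  | zero => simp
  | succ j => simp

private theorem StepF_axis_zero {m : ℕ} (t : ℝ) :
    ((0 : Fin (m+1)).insertNth t (0 : Fin m → ℝ) : Fin (m+1) → ℝ) 0 = t := by
  simp

/-- `(A + B) (1 / A + 1 / B) ≥ 4`, written with `A = u > 0` and `B = -v > 0`. -/
private theorem StepF_four_le {u v : ℝ} (hu : 0 < u) (hv : v < 0) :
    4 ≤ (u - v) * (1 / u - 1 / v) := by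
  have hv' : 0 < -v := by linarith
  have hune : u ≠ 0 := hu.ne'
  have hvne : v ≠ 0 := hv.ne
  have e : (u - v) * (1 / u - 1 / v) - 4 = (u + v) ^ 2 / (u * (-v)) := by
    field_simp
    ring
  have hnn : 0 ≤ (u + v) ^ 2 / (u * (-v)) := div_nonneg (sq_nonneg _) (mul_pos hu hv').le
  linarith

/-- The induction step that removes a free coordinate (no symmetric coordinates left). -/
theorem gcorner_stepF {m : ℕ}
    (ih : ∀ C' : Set (Fin m → ℝ), GCorner ∅ C' →
      (4:ℝ) ^ m / (m.factorial : ℝ) ^ 2 ≤ vol C' * vol (gdual ∅ C'))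
    (C : Set (Fin (m+1) → ℝ)) (hC : GCorner ∅ C) :
    (4:ℝ) ^ (m+1) / ((m+1).factorial : ℝ) ^ 2 ≤ vol C * vol (gdual ∅ C) := by
  have hCc : IsCompact C := StepF_isCompact hC
  obtain ⟨r, hr, hbox⟩ := hC.box
  have hPp : (0 : Fin (m+1)).insertNth r (0 : Fin m → ℝ) ∈ C := by
    refine hbox _ (fun i => ?_) (fun i hi => absurd hi (Finset.notMem_empty i))
    have h := StepF_axis_abs (m := m) r i
    rwa [abs_of_pos hr] at h
  have hPm : (0 : Fin (m+1)).insertNth (-r) (0 : Fin m → ℝ) ∈ C := by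
    refine hbox _ (fun i => ?_) (fun i hi => absurd hi (Finset.notMem_empty i))
    have h := StepF_axis_abs (m := m) (-r) i
    rwa [abs_neg, abs_of_pos hr] at h
  have hne : C.Nonempty := ⟨_, hPp⟩
  have hcont : Continuous fun x : Fin (m+1) → ℝ => x 0 := continuous_apply 0
  obtain ⟨p, hp, hpmax⟩ := hCc.exists_isMaxOn hne hcont.continuousOn
  obtain ⟨q, hq, hqmin⟩ := hCc.exists_isMinOn hne hcont.continuousOn
  have hpmax' : ∀ x ∈ C, x 0 ≤ p 0 := fun x hx => isMaxOn_iff.mp hpmax x hx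
  have hqmin' : ∀ x ∈ C, q 0 ≤ x 0 := fun x hx => isMinOn_iff.mp hqmin x hx
  have hp0 : 0 < p 0 := by
    have h := hpmax' _ hPp
    rw [StepF_axis_zero] at h
    linarith
  have hq0 : q 0 < 0 := by
    have h := hqmin' _ hPm
    rw [StepF_axis_zero] at h
    linarith
  have hD : GCorner ∅ (gdual ∅ C) := gcorner_dual hC
  have hDc : IsCompact (gdual ∅ C) := StepF_isCompact hD
  have h2 : (0 : Fin (m+1)).insertNth (1 / p 0) (0 : Fin m → ℝ) ∈ gdual ∅ C := by
    refine ⟨fun i hi => absurd hi (Finset.notMem_empty i), fun x hx => ?_⟩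
    rw [StepF_axis_sum, mul_one_div, div_le_one hp0]
    exact hpmax' x hx
  have h1 : (0 : Fin (m+1)).insertNth (1 / q 0) (0 : Fin m → ℝ) ∈ gdual ∅ C := by
    refine ⟨fun i hi => absurd hi (Finset.notMem_empty i), fun x hx => ?_⟩
    rw [StepF_axis_sum, mul_one_div, div_le_one_of_neg hq0]
    exact hqmin' x hx
  have e1 : 1 / q 0 < 0 := one_div_neg.mpr hq0
  have e2 : 0 < 1 / p 0 := one_div_pos.mpr hp0
  have ht : 1 / q 0 ≤ 1 / p 0 := by linarith
  have hfib := vol_ge_fiber hDc hD.convex ht h1 h2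
  rw [proj_gdual hC] at hfib
  have hcone := vol_ge_dcone hC hp hq hp0 hq0
  have hih := ih (gfacet C 0) (gcorner_facet_free hC)
  have hab := StepF_four_le hp0 hq0
  have hV1 : 0 ≤ vol (gfacet C 0) := ENNReal.toReal_nonneg
  have hV2 : 0 ≤ vol (gdual ∅ (gfacet C 0)) := ENNReal.toReal_nonneg
  have hX : 0 ≤ vol C := ENNReal.toReal_nonneg
  have hb : 0 < 1 / p 0 - 1 / q 0 := by linarith
  have hm1 : (0:ℝ) ≤ (m:ℝ) + 1 := by positivity
  have hprod : (p 0 - q 0) * vol (gfacet C 0) *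
      ((1 / p 0 - 1 / q 0) * vol (gdual ∅ (gfacet C 0))) ≤
      ((m:ℝ) + 1) * vol C * (((m:ℝ) + 1) * vol (gdual ∅ C)) :=
    mul_le_mul hcone hfib (mul_nonneg hb.le hV2) (mul_nonneg hm1 hX)
  have h4 : 4 * (vol (gfacet C 0) * vol (gdual ∅ (gfacet C 0))) ≤
      ((m:ℝ) + 1) ^ 2 * (vol C * vol (gdual ∅ C)) := by
    calc 4 * (vol (gfacet C 0) * vol (gdual ∅ (gfacet C 0)))
        ≤ (p 0 - q 0) * (1 / p 0 - 1 / q 0) *
            (vol (gfacet C 0) * vol (gdual ∅ (gfacet C 0))) :=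
          mul_le_mul_of_nonneg_right hab (mul_nonneg hV1 hV2)
      _ = (p 0 - q 0) * vol (gfacet C 0) *
            ((1 / p 0 - 1 / q 0) * vol (gdual ∅ (gfacet C 0))) := by ring
      _ ≤ ((m:ℝ) + 1) * vol C * (((m:ℝ) + 1) * vol (gdual ∅ C)) := hprod
      _ = ((m:ℝ) + 1) ^ 2 * (vol C * vol (gdual ∅ C)) := by ring
  have hfact : ((m+1).factorial : ℝ) = ((m:ℝ) + 1) * (m.factorial : ℝ) := by
    rw [Nat.factorial_succ]
    push_cast
    ring
  have hmf : (0:ℝ) < (m.factorial : ℝ) := by exact_mod_cast Nat.factorial_pos m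
  rw [hfact, div_le_iff₀ (by positivity)]
  rw [div_le_iff₀ (by positivity)] at hih
  calc (4:ℝ) ^ (m+1) = 4 * 4 ^ m := by ring
    _ ≤ 4 * (vol (gfacet C 0) * vol (gdual ∅ (gfacet C 0)) * (m.factorial : ℝ) ^ 2) :=
        mul_le_mul_of_nonneg_left hih (by norm_num)
    _ = 4 * (vol (gfacet C 0) * vol (gdual ∅ (gfacet C 0))) * (m.factorial : ℝ) ^ 2 := by ring
    _ ≤ ((m:ℝ) + 1) ^ 2 * (vol C * vol (gdual ∅ C)) * (m.factorial : ℝ) ^ 2 :=
        mul_le_mul_of_nonneg_right h4 (by positivity)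
    _ = vol C * vol (gdual ∅ C) * (((m:ℝ) + 1) * (m.factorial : ℝ)) ^ 2 := by ring

end Vale.Agent.Lib.P248.Gen
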