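import Vale.Agent.Lib.P248.Gen.StepS
import Vale.Agent.Lib.P248.Gen.StepF
import Vale.Agent.Lib.P248.Gen.Base0

open MeasureTheory Set

namespace Vale.Agent.Lib.P248.Gen

/-- **Product inequality for corners**: `|C| |C^d| ≥ 4^(m-s) s! / (m!)^2` for a corner in `ℝ^m`
with `s` symmetric coordinates. -/
theorem gcorner_product : ∀ (m : ℕ) (S : Finset (Fin m)) (C : Set (Fin m → ℝ)), GCorner S C →
    (4:ℝ) ^ m * (S.card).factorial / (4 ^ S.card * (m.factorial : ℝ) ^ 2) ≤
      vol C * vol (gdual S C) := by
  intro m
  induction m with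
  | zero =>
    intro S C hC
    have h := gcorner_base0 S C hC
    have hS : S.card = 0 := by
      rw [Finset.card_eq_zero]
      exact Finset.eq_empty_of_isEmpty S
    rw [hS]
    norm_num
    exact h
  | succ k ih =>
    intro S C hC
    by_cases hS : S.Nonempty
    · exact gcorner_stepS ih S hS C hC
    · rw [Finset.not_nonempty_iff_eq_empty] at hS
      subst hS
      have ih0 : ∀ C' : Set (Fin k → ℝ), GCorner ∅ C' →
          (4:ℝ) ^ k / (k.factorial : ℝ) ^ 2 ≤ vol C' * vol (gdual ∅ C') := by
        intro C' hC'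
        have h := ih ∅ C' hC'
        simpa using h
      have h := gcorner_stepF ih0 C hC
      simpa using h

end Vale.Agent.Lib.P248.Gen
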