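import Vale.Agent.Lib.P248.Gen.ConeSlice

open MeasureTheory Set

namespace Vale.Agent.Lib.P248.Gen

variable {m : ℕ} {S : Finset (Fin (m+1))} {C : Set (Fin (m+1) → ℝ)}

private theorem cone_gconeRegion_subset (p : Fin (m+1) → ℝ) (i : Fin (m+1)) :
    gconeRegion S C p i ⊆ C := fun _ hx => hx.1

private theorem cone_gconeRegion_measurable (hC : GCorner S C) (p : Fin (m+1) → ℝ)
    (i : Fin (m+1)) : MeasurableSet (gconeRegion S C p i) := by
  have h1 : MeasurableSet C := hC.closed.measurableSet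
  have h2 : MeasurableSet {x : Fin (m+1) → ℝ | 0 < x i} :=
    measurableSet_lt measurable_const (measurable_pi_apply i)
  have h3 : MeasurableSet {x : Fin (m+1) → ℝ | x i < p i} :=
    measurableSet_lt (measurable_pi_apply i) measurable_const
  have h4 : ∀ j : Fin (m+1),
      MeasurableSet {x : Fin (m+1) → ℝ | j ∈ S → j ≠ i → x i * p j < x j * p i} := by
    intro j
    by_cases hj : j ∈ S ∧ j ≠ i
    · have hset : {x : Fin (m+1) → ℝ | j ∈ S → j ≠ i → x i * p j < x j * p i}
          = {x : Fin (m+1) → ℝ | x i * p j < x j * p i} := by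
        ext x
        simp only [Set.mem_ofPred_eq]
        exact ⟨fun h => h hj.1 hj.2, fun h _ _ => h⟩
      rw [hset]
      exact measurableSet_lt ((measurable_pi_apply i).mul_const _)
        ((measurable_pi_apply j).mul_const _)
    · have hset : {x : Fin (m+1) → ℝ | j ∈ S → j ≠ i → x i * p j < x j * p i}
          = Set.univ := by
        ext x
        simp only [Set.mem_ofPred_eq, Set.mem_univ, iff_true]
        intro a b
        exact absurd ⟨a, b⟩ hj
      rw [hset]
      exact MeasurableSet.univ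
  have hset : gconeRegion S C p i = C ∩ ({x : Fin (m+1) → ℝ | 0 < x i} ∩
      ({x : Fin (m+1) → ℝ | x i < p i} ∩
        ⋂ j : Fin (m+1), {x : Fin (m+1) → ℝ | j ∈ S → j ≠ i → x i * p j < x j * p i})) := by
    ext x
    simp only [gconeRegion, Set.mem_ofPred_eq, Set.mem_inter_iff, Set.mem_iInter]
  rw [hset]
  exact h1.inter (h2.inter (h3.inter (MeasurableSet.iInter h4)))

private theorem cone_gconeRegion_disjoint (p : Fin (m+1) → ℝ) {i j : Fin (m+1)} (hi : i ∈ S)
    (hj : j ∈ S) (hij : i ≠ j) : Disjoint (gconeRegion S C p i) (gconeRegion S C p j) := by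
  rw [Set.disjoint_left]
  intro x hxi hxj
  have h1 := hxi.2.2.2 j hj (Ne.symm hij)
  have h2 := hxj.2.2.2 i hi hij
  exact lt_asymm h1 h2

/-- **Cone inequality.** For every point `p` of a corner,
`∑_{i ∈ S} p i |C ∩ {x i = 0}| ≤ (m+1) |C|`. -/
theorem gcone_ineq (hC : GCorner S C) {p : Fin (m+1) → ℝ} (hp : p ∈ C) :
    ∑ i ∈ S, p i * vol (gfacet C i) ≤ ((m:ℝ) + 1) * vol C := by
  have hn2 : (0:ℝ) ≤ (m:ℝ) + 1 := by positivity
  have hfin : volume C ≠ ⊤ := gcorner_volume_ne_top hC
  have hfin' : ∀ i : Fin (m+1), volume (gconeRegion S C p i) ≠ ⊤ := fun i =>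
    ne_top_of_le_ne_top hfin (measure_mono (cone_gconeRegion_subset p i))
  have hstep : ∀ i ∈ S, p i * vol (gfacet C i)
      ≤ ((m:ℝ) + 1) * vol (gconeRegion S C p i) := by
    intro i hi
    have hpi : 0 ≤ p i := hC.nonneg p hp i hi
    rcases hpi.lt_or_eq with hpos | hzero
    · exact gcone_slice hC hp i hi hpos
    · rw [← hzero, zero_mul]
      exact mul_nonneg hn2 ENNReal.toReal_nonneg
  have hsum : ∑ i ∈ S, vol (gconeRegion S C p i) ≤ vol C := by
    have hdisj : (S : Set (Fin (m+1))).PairwiseDisjoint (fun i => gconeRegion S C p i) := by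
      intro i hi j hj hij
      exact cone_gconeRegion_disjoint p (Finset.mem_coe.mp hi) (Finset.mem_coe.mp hj) hij
    have hU : volume (⋃ i ∈ S, gconeRegion S C p i) = ∑ i ∈ S, volume (gconeRegion S C p i) :=
      measure_biUnion_finset hdisj (fun i _ => cone_gconeRegion_measurable hC p i)
    have hsub : (⋃ i ∈ S, gconeRegion S C p i) ⊆ C :=
      Set.iUnion₂_subset (fun i _ => cone_gconeRegion_subset p i)
    unfold vol
    rw [← ENNReal.toReal_sum (fun i _ => hfin' i), ← hU]
    exact ENNReal.toReal_mono hfin (measure_mono hsub)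
  calc ∑ i ∈ S, p i * vol (gfacet C i)
      ≤ ∑ i ∈ S, ((m:ℝ) + 1) * vol (gconeRegion S C p i) :=
        Finset.sum_le_sum (fun i hi => hstep i hi)
    _ = ((m:ℝ) + 1) * ∑ i ∈ S, vol (gconeRegion S C p i) := by
        rw [Finset.mul_sum]
    _ ≤ ((m:ℝ) + 1) * vol C := mul_le_mul_of_nonneg_left hsum hn2

end Vale.Agent.Lib.P248.Gen
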