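import Vale.Agent.Lib.P248.Gen.Corner

open MeasureTheory Set

namespace Vale.Agent.Lib.P248.Gen

variable {m : ℕ} {S : Finset (Fin (m+1))} {C : Set (Fin (m+1) → ℝ)}

/-- The slice of the cone region at height `τ` contains a homothetic copy of the facet. -/
theorem gconeRegion_slice (hC : GCorner S C) {p : Fin (m+1) → ℝ} (hp : p ∈ C)
    (i : Fin (m+1)) (hi : i ∈ S) {τ : ℝ} (h0 : 0 < τ) (h1 : τ < p i) :
    AffineMap.homothety (i.removeNth p) (1 - τ / p i) ''
        {g : Fin m → ℝ | g ∈ gfacet C i ∧ ∀ k ∈ subS S i, 0 < g k} ⊆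
      {g : Fin m → ℝ | i.insertNth τ g ∈ gconeRegion S C p i} := by
  have _ := hi
  rintro _ ⟨g, ⟨hg, hpos⟩, rfl⟩
  have hpi : 0 < p i := lt_trans h0 h1
  have ht0 : 0 < τ / p i := div_pos h0 hpi
  have ht1 : τ / p i < 1 := (div_lt_one hpi).mpr h1
  have htp : τ / p i * p i = τ := div_mul_cancel₀ τ hpi.ne'
  have hgC : (i.insertNth (0 : ℝ) g : Fin (m+1) → ℝ) ∈ C := hg
  have hsame : (i.insertNth τ (AffineMap.homothety (i.removeNth p) (1 - τ / p i) g)
      : Fin (m+1) → ℝ) i = τ := Fin.insertNth_apply_same (α := fun _ => ℝ) i τ _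
  have hsucc : ∀ k : Fin m,
      (i.insertNth τ (AffineMap.homothety (i.removeNth p) (1 - τ / p i) g)
        : Fin (m+1) → ℝ) (i.succAbove k)
        = (1 - τ / p i) * g k + τ / p i * p (i.succAbove k) := by
    intro k
    rw [Fin.insertNth_apply_succAbove, AffineMap.homothety_apply]
    simp only [vsub_eq_sub, vadd_eq_add, Pi.add_apply, Pi.smul_apply, Pi.sub_apply,
      smul_eq_mul, Fin.removeNth]
    ring
  have hx : (i.insertNth τ (AffineMap.homothety (i.removeNth p) (1 - τ / p i) g)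
      : Fin (m+1) → ℝ)
      = (1 - τ / p i) • (i.insertNth (0 : ℝ) g : Fin (m+1) → ℝ) + (τ / p i) • p := by
    funext j
    by_cases hj : j = i
    · subst hj
      rw [hsame]
      simp only [Pi.add_apply, Pi.smul_apply, smul_eq_mul, Fin.insertNth_apply_same]
      rw [htp]
      ring
    · obtain ⟨k, rfl⟩ := Fin.exists_succAbove_eq hj
      rw [hsucc k]
      simp only [Pi.add_apply, Pi.smul_apply, smul_eq_mul, Fin.insertNth_apply_succAbove]
  refine ⟨?_, ?_, ?_, ?_⟩
  · rw [hx]
    exact hC.convex hgC hp (by linarith) ht0.le (by ring)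
  · rw [hsame]
    exact h0
  · rw [hsame]
    exact h1
  · intro j hjS hji
    obtain ⟨k, rfl⟩ := Fin.exists_succAbove_eq hji
    have hk : k ∈ subS S i := Finset.mem_filter.2 ⟨Finset.mem_univ k, hjS⟩
    have hgk : 0 < g k := hpos k hk
    rw [hsame, hsucc k]
    have h2 : 0 < (1 - τ / p i) * g k * p i :=
      mul_pos (mul_pos (by linarith) hgk) hpi
    have h3 : τ / p i * p (i.succAbove k) * p i = τ * p (i.succAbove k) := by
      rw [mul_right_comm, htp]
    nlinarith

end Vale.Agent.Lib.P248.Gen
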