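import Vale.Agent.Lib.P248.Gen.Corner

open MeasureTheory Set

namespace Vale.Agent.Lib.P248.Gen

variable {m : ℕ} {S : Finset (Fin (m+1))} {C : Set (Fin (m+1) → ℝ)}

/-- A coordinate hyperplane of `ℝ^m` is a null set. -/
private theorem conePos_hyperplane_null (k : Fin m) :
    volume {g : Fin m → ℝ | g k = 0} = 0 := by
  rw [volume_pi]
  exact Measure.pi_hyperplane (μ := fun _ : Fin m => (volume : Measure ℝ)) k 0

/-- The part of a facet with positive symmetric coordinates has the same volume. -/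
theorem volume_gfacet_pos (hC : GCorner S C) (i : Fin (m+1)) (hi : i ∈ S) :
    volume {g : Fin m → ℝ | g ∈ gfacet C i ∧ ∀ k ∈ subS S i, 0 < g k} =
      volume (gfacet C i) := by
  have _hi := hi
  apply le_antisymm
  · exact measure_mono (fun g hg => hg.1)
  · have hsub : gfacet C i ⊆
        {g : Fin m → ℝ | g ∈ gfacet C i ∧ ∀ k ∈ subS S i, 0 < g k} ∪
          ⋃ k : Fin m, {g : Fin m → ℝ | g k = 0} := by
      intro g hg
      by_cases h : ∀ k ∈ subS S i, 0 < g k
      · exact Or.inl ⟨hg, h⟩
      · right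
        push Not at h
        obtain ⟨k, hkS, hk⟩ := h
        have hmem : i.succAbove k ∈ S := (Finset.mem_filter.mp hkS).2
        have hnn : 0 ≤ g k := by
          have h1 := hC.nonneg _ hg (i.succAbove k) hmem
          rwa [Fin.insertNth_apply_succAbove] at h1
        exact Set.mem_iUnion.mpr ⟨k, le_antisymm hk hnn⟩
    have hnull : volume (⋃ k : Fin m, {g : Fin m → ℝ | g k = 0}) = 0 :=
      measure_iUnion_null (fun k => conePos_hyperplane_null k)
    calc volume (gfacet C i)
        ≤ volume ({g : Fin m → ℝ | g ∈ gfacet C i ∧ ∀ k ∈ subS S i, 0 < g k} ∪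
            ⋃ k : Fin m, {g : Fin m → ℝ | g k = 0}) := measure_mono hsub
      _ ≤ volume {g : Fin m → ℝ | g ∈ gfacet C i ∧ ∀ k ∈ subS S i, 0 < g k} +
            volume (⋃ k : Fin m, {g : Fin m → ℝ | g k = 0}) := measure_union_le _ _
      _ = volume {g : Fin m → ℝ | g ∈ gfacet C i ∧ ∀ k ∈ subS S i, 0 < g k} := by
          rw [hnull, add_zero]

end Vale.Agent.Lib.P248.Gen
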