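import Vale.Agent.Lib.P248.Gen.Corner

open MeasureTheory Set

namespace Vale.Agent.Lib.P248.Gen

variable {m : ℕ} {S : Finset (Fin (m+1))} {C : Set (Fin (m+1) → ℝ)}

/-- Membership in the set of the remaining symmetric coordinates. -/
private theorem facet_mem_subS {i : Fin (m+1)} {k : Fin m} :
    k ∈ subS S i ↔ i.succAbove k ∈ S := by
  unfold subS
  rw [Finset.mem_filter]
  exact ⟨fun h => h.2, fun h => ⟨Finset.mem_univ k, h⟩⟩

/-- Coordinate `i` of the inserted point. -/
private theorem facet_insert_same (i : Fin (m+1)) (g : Fin m → ℝ) :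
    (i.insertNth (0 : ℝ) g : Fin (m+1) → ℝ) i = 0 :=
  Fin.insertNth_apply_same (α := fun _ => ℝ) i (0 : ℝ) g

/-- The other coordinates of the inserted point. -/
private theorem facet_insert_succAbove (i : Fin (m+1)) (g : Fin m → ℝ) (k : Fin m) :
    (i.insertNth (0 : ℝ) g : Fin (m+1) → ℝ) (i.succAbove k) = g k :=
  Fin.insertNth_apply_succAbove (α := fun _ => ℝ) i (0 : ℝ) g k

/-- Removing a symmetric coordinate lowers the number of symmetric coordinates by one. -/
theorem card_subS (i : Fin (m+1)) (hi : i ∈ S) : (subS S i).card + 1 = S.card := by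
  have hS : S = insert i ((subS S i).image i.succAbove) := by
    ext j
    rw [Finset.mem_insert, Finset.mem_image]
    constructor
    · intro hj
      rcases eq_or_ne j i with hji | hji
      · exact Or.inl hji
      · obtain ⟨k, rfl⟩ := Fin.exists_succAbove_eq hji
        exact Or.inr ⟨k, facet_mem_subS.2 hj, rfl⟩
    · rintro (hji | ⟨k, hk, rfl⟩)
      · rw [hji]
        exact hi
      · exact facet_mem_subS.1 hk
  have hnot : i ∉ (subS S i).image i.succAbove := by
    rw [Finset.mem_image]
    rintro ⟨k, -, hk⟩
    exact Fin.succAbove_ne i k hk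
  have hcard : ((subS S i).image i.succAbove).card = (subS S i).card :=
    Finset.card_image_of_injective _ Fin.succAbove_right_injective
  have hc2 : S.card = (subS S i).card + 1 := by
    calc S.card = (insert i ((subS S i).image i.succAbove)).card := congrArg Finset.card hS
      _ = ((subS S i).image i.succAbove).card + 1 := Finset.card_insert_of_notMem hnot
      _ = (subS S i).card + 1 := by rw [hcard]
  exact hc2.symm

/-- The facets of a corner in the symmetric coordinate hyperplanes are corners. -/
theorem gcorner_facet (hC : GCorner S C) (i : Fin (m+1)) (hi : i ∈ S) :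
    GCorner (subS S i) (gfacet C i) := by
  have _hiS : i ∈ S := hi
  refine ⟨?_, ?_, ?_, ?_, ?_, ?_⟩
  · have hcont : Continuous
        (fun g : Fin m → ℝ => (i.insertNth (0 : ℝ) g : Fin (m+1) → ℝ)) := by
      refine continuous_pi (fun j => ?_)
      rcases eq_or_ne j i with hji | hj
      · rw [hji]
        simp only [facet_insert_same]
        exact continuous_const
      · obtain ⟨k, rfl⟩ := Fin.exists_succAbove_eq hj
        simp only [facet_insert_succAbove]
        exact continuous_apply k
    exact hC.closed.preimage hcont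
  · intro g hg g' hg' a b ha hb hab
    have e : (i.insertNth (0 : ℝ) (a • g + b • g') : Fin (m+1) → ℝ)
        = a • (i.insertNth (0 : ℝ) g : Fin (m+1) → ℝ) + b • (i.insertNth (0 : ℝ) g') := by
      funext j
      rcases eq_or_ne j i with hji | hj
      · rw [hji]
        simp only [facet_insert_same, Pi.add_apply, Pi.smul_apply, smul_eq_mul, mul_zero,
          add_zero]
      · obtain ⟨k, rfl⟩ := Fin.exists_succAbove_eq hj
        simp only [facet_insert_succAbove, Pi.add_apply, Pi.smul_apply, smul_eq_mul]
    show (i.insertNth (0 : ℝ) (a • g + b • g') : Fin (m+1) → ℝ) ∈ C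
    rw [e]
    exact hC.convex hg hg' ha hb hab
  · obtain ⟨R, hR⟩ := hC.bdd
    refine ⟨R, fun g hg k => ?_⟩
    have h := hR _ hg (i.succAbove k)
    rwa [facet_insert_succAbove] at h
  · intro g hg k hk
    have h := hC.nonneg _ hg (i.succAbove k) (facet_mem_subS.1 hk)
    rwa [facet_insert_succAbove] at h
  · intro g hg g' h0 h
    show (i.insertNth (0 : ℝ) g' : Fin (m+1) → ℝ) ∈ C
    refine hC.down _ hg _ ?_ ?_
    · intro j hjS
      rcases eq_or_ne j i with hji | hj
      · rw [hji, facet_insert_same, facet_insert_same]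
      · obtain ⟨k, rfl⟩ := Fin.exists_succAbove_eq hj
        rw [facet_insert_succAbove, facet_insert_succAbove]
        exact h0 k (fun hk => hjS (facet_mem_subS.1 hk))
    · intro j hjS
      rcases eq_or_ne j i with hji | hj
      · rw [hji, facet_insert_same, facet_insert_same]
        exact ⟨le_rfl, le_rfl⟩
      · obtain ⟨k, rfl⟩ := Fin.exists_succAbove_eq hj
        rw [facet_insert_succAbove, facet_insert_succAbove]
        exact h k (facet_mem_subS.2 hjS)
  · obtain ⟨r, hr, hbox⟩ := hC.box
    refine ⟨r, hr, fun g hg hg0 => ?_⟩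
    show (i.insertNth (0 : ℝ) g : Fin (m+1) → ℝ) ∈ C
    refine hbox _ ?_ ?_
    · intro j
      rcases eq_or_ne j i with hji | hj
      · rw [hji, facet_insert_same, abs_zero]
        exact hr.le
      · obtain ⟨k, rfl⟩ := Fin.exists_succAbove_eq hj
        rw [facet_insert_succAbove]
        exact hg k
    · intro j hjS
      rcases eq_or_ne j i with hji | hj
      · rw [hji, facet_insert_same]
      · obtain ⟨k, rfl⟩ := Fin.exists_succAbove_eq hj
        rw [facet_insert_succAbove]
        exact hg0 k (facet_mem_subS.2 hjS)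

/-- The pairing with an inserted point. -/
private theorem facet_sum (i : Fin (m+1)) (x : Fin (m+1) → ℝ) (y : Fin m → ℝ) :
    ∑ j, x j * (i.insertNth (0 : ℝ) y : Fin (m+1) → ℝ) j = ∑ k, x (i.succAbove k) * y k := by
  rw [Fin.sum_univ_succAbove _ i]
  simp only [facet_insert_same, facet_insert_succAbove, mul_zero, zero_add]

/-- The facet of the dual is the dual of the facet (projection equals section). -/
theorem gfacet_gdual (hC : GCorner S C) (i : Fin (m+1)) (hi : i ∈ S) :
    gfacet (gdual S C) i = gdual (subS S i) (gfacet C i) := by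
  ext y
  constructor
  · intro hy
    have hy' : (∀ j ∈ S, 0 ≤ (i.insertNth (0 : ℝ) y : Fin (m+1) → ℝ) j) ∧
        ∀ x ∈ C, ∑ j, x j * (i.insertNth (0 : ℝ) y : Fin (m+1) → ℝ) j ≤ 1 := hy
    obtain ⟨hnn, hsum⟩ := hy'
    refine ⟨fun k hk => ?_, fun g hg => ?_⟩
    · have h := hnn (i.succAbove k) (facet_mem_subS.1 hk)
      rwa [facet_insert_succAbove] at h
    · have hg' : (i.insertNth (0 : ℝ) g : Fin (m+1) → ℝ) ∈ C := hg
      have h := hsum _ hg'
      rw [facet_sum] at h
      simp only [facet_insert_succAbove] at h
      exact h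
  · intro hy
    obtain ⟨hnn, hsum⟩ := hy
    show (i.insertNth (0 : ℝ) y : Fin (m+1) → ℝ) ∈ gdual S C
    refine ⟨fun j hjS => ?_, fun x hx => ?_⟩
    · rcases eq_or_ne j i with hji | hj
      · rw [hji, facet_insert_same]
      · obtain ⟨k, rfl⟩ := Fin.exists_succAbove_eq hj
        rw [facet_insert_succAbove]
        exact hnn k (facet_mem_subS.2 hjS)
    · rw [facet_sum]
      have hg : (fun k => x (i.succAbove k)) ∈ gfacet C i := by
        show (i.insertNth (0 : ℝ) (fun k => x (i.succAbove k)) : Fin (m+1) → ℝ) ∈ C
        refine hC.down x hx _ ?_ ?_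
        · intro j hjS
          rcases eq_or_ne j i with hji | hj
          · rw [hji] at hjS
            exact absurd hi hjS
          · obtain ⟨k, rfl⟩ := Fin.exists_succAbove_eq hj
            rw [facet_insert_succAbove]
        · intro j hjS
          rcases eq_or_ne j i with hji | hj
          · rw [hji, facet_insert_same]
            rw [hji] at hjS
            exact ⟨le_rfl, hC.nonneg x hx i hjS⟩
          · obtain ⟨k, rfl⟩ := Fin.exists_succAbove_eq hj
            rw [facet_insert_succAbove]
            exact ⟨hC.nonneg x hx _ hjS, le_rfl⟩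
      exact hsum _ hg

end Vale.Agent.Lib.P248.Gen
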