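import Vale.Agent.Lib.P248.Slice
import Vale.Agent.Lib.P248.Gen.Dual
import Vale.Agent.Lib.P248.Gen.Facet
import Vale.Agent.Lib.P248.Gen.ConePos
import Vale.Agent.Lib.P248.Gen.ConeHom

open MeasureTheory Set

namespace Vale.Agent.Lib.P248.Gen

variable {m : ℕ} {S : Finset (Fin (m+1))} {C : Set (Fin (m+1) → ℝ)}

/-- The cone region is measurable. -/
private theorem ConeSlice_measurable (hC : GCorner S C) (p : Fin (m+1) → ℝ) (i : Fin (m+1)) :
    MeasurableSet (gconeRegion S C p i) := by
  have e : gconeRegion S C p i = C ∩ {x | 0 < x i} ∩ {x | x i < p i} ∩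
      ⋂ j : Fin (m+1), {x | j ∈ S → j ≠ i → x i * p j < x j * p i} := by
    ext x
    simp only [gconeRegion, mem_ofPred_eq, mem_inter_iff, mem_iInter]
    tauto
  rw [e]
  refine (((hC.closed.measurableSet).inter ?_).inter ?_).inter (MeasurableSet.iInter fun j => ?_)
  · exact measurableSet_lt measurable_const (measurable_pi_apply i)
  · exact measurableSet_lt (measurable_pi_apply i) measurable_const
  · by_cases hj : j ∈ S ∧ j ≠ i
    · have h : {x : Fin (m+1) → ℝ | j ∈ S → j ≠ i → x i * p j < x j * p i}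
          = {x | x i * p j < x j * p i} := by
        ext x
        simp only [mem_ofPred_eq]
        constructor
        · intro h
          exact h hj.1 hj.2
        · intro h _ _
          exact h
      rw [h]
      exact measurableSet_lt ((measurable_pi_apply i).mul_const _)
        ((measurable_pi_apply j).mul_const _)
    · have h : {x : Fin (m+1) → ℝ | j ∈ S → j ≠ i → x i * p j < x j * p i} = univ := by
        ext x
        simp only [mem_ofPred_eq, mem_univ, iff_true]
        intro h1 h2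
        exact absurd ⟨h1, h2⟩ hj
      rw [h]
      exact MeasurableSet.univ

/-- The integral of `(1 - τ/q)^m` over `(0, q)` is `q/(m+1)`, as a lower integral. -/
private theorem ConeSlice_profile (m : ℕ) {q : ℝ} (hq : 0 < q) :
    ∫⁻ τ in Ioo (0:ℝ) q, ENNReal.ofReal ((1 - τ / q) ^ m)
      = ENNReal.ofReal (q / ((m:ℝ) + 1)) := by
  have hcont : Continuous (fun τ : ℝ => (1 - τ / q) ^ m) := by fun_prop
  have hnn : 0 ≤ᵐ[volume.restrict (Ioo (0:ℝ) q)] fun τ : ℝ => (1 - τ / q) ^ m := by
    filter_upwards [ae_restrict_mem measurableSet_Ioo] with τ hτ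
    apply pow_nonneg
    have h : τ / q < 1 := (div_lt_one hq).mpr hτ.2
    linarith
  have hintg : Integrable (fun τ : ℝ => (1 - τ / q) ^ m) (volume.restrict (Ioo (0:ℝ) q)) :=
    (hcont.integrableOn_Icc (a := 0) (b := q)).mono_set Ioo_subset_Icc_self
  rw [← ofReal_integral_eq_lintegral_ofReal hintg hnn]
  have hq0 : q ≠ 0 := hq.ne'
  have hn0 : ((m:ℝ) + 1) ≠ 0 := by positivity
  have hderiv : ∀ τ ∈ uIcc (0:ℝ) q,
      HasDerivAt (fun τ : ℝ => -(q / ((m:ℝ) + 1)) * (1 - τ / q) ^ (m+1))
        ((1 - τ / q) ^ m) τ := by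
    intro τ _
    have h1 : HasDerivAt (fun τ : ℝ => 1 - τ / q) (-(1 / q)) τ := by
      have h := ((hasDerivAt_id τ).div_const q).const_sub 1
      simpa using h
    have h2 := (h1.pow (m+1)).const_mul (-(q / ((m:ℝ) + 1)))
    refine h2.congr_deriv ?_
    push_cast
    field_simp
  have hval : ∫ τ in Ioo (0:ℝ) q, (1 - τ / q) ^ m = q / ((m:ℝ) + 1) := by
    rw [← integral_Ioc_eq_integral_Ioo, ← intervalIntegral.integral_of_le hq.le,
      intervalIntegral.integral_eq_sub_of_hasDerivAt hderiv (hcont.intervalIntegrable _ _)]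
    simp [div_self hq0]
  rw [hval]

/-- The cone region over the facet `x i = 0` has volume at least `p i |facet| / (m+1)`. -/
theorem gcone_slice (hC : GCorner S C) {p : Fin (m+1) → ℝ} (hp : p ∈ C)
    (i : Fin (m+1)) (hi : i ∈ S) (hpi : 0 < p i) :
    p i * vol (gfacet C i) ≤ ((m:ℝ) + 1) * vol (gconeRegion S C p i) := by
  have hmeas : MeasurableSet (gconeRegion S C p i) := ConeSlice_measurable hC p i
  have hsub : gconeRegion S C p i ⊆ C := fun x hx => hx.1
  have hfin : volume (gconeRegion S C p i) ≠ ⊤ :=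
    ne_top_of_le_ne_top (gcorner_volume_ne_top hC) (measure_mono hsub)
  have hslice := volume_eq_lintegral_slice i hmeas
  have hFvol : volume {g : Fin m → ℝ | g ∈ gfacet C i ∧ ∀ k ∈ subS S i, 0 < g k}
      = volume (gfacet C i) := volume_gfacet_pos hC i hi
  have hlow : ∀ τ ∈ Ioo (0:ℝ) (p i),
      ENNReal.ofReal ((1 - τ / p i) ^ m) * volume (gfacet C i)
        ≤ volume {g : Fin m → ℝ | i.insertNth τ g ∈ gconeRegion S C p i} := by
    intro τ hτ
    have h1 := gconeRegion_slice hC hp i hi hτ.1 hτ.2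
    have h2 := measure_mono (μ := volume) h1
    rw [Measure.addHaar_image_homothety, Module.finrank_fin_fun, hFvol] at h2
    have hnn : 0 ≤ (1 - τ / p i) ^ m := by
      apply pow_nonneg
      have h : τ / p i < 1 := (div_lt_one hpi).mpr hτ.2
      linarith
    rw [abs_of_nonneg hnn] at h2
    exact h2
  have hmain : ENNReal.ofReal (p i / ((m:ℝ) + 1)) * volume (gfacet C i)
      ≤ volume (gconeRegion S C p i) := by
    rw [hslice, ← ConeSlice_profile m hpi]
    have hmeasf : Measurable (fun τ : ℝ => ENNReal.ofReal ((1 - τ / p i) ^ m)) := by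
      fun_prop
    rw [← lintegral_mul_const _ hmeasf]
    calc ∫⁻ τ in Ioo (0:ℝ) (p i), ENNReal.ofReal ((1 - τ / p i) ^ m) * volume (gfacet C i)
        ≤ ∫⁻ τ in Ioo (0:ℝ) (p i),
            volume {g : Fin m → ℝ | i.insertNth τ g ∈ gconeRegion S C p i} :=
          setLIntegral_mono' measurableSet_Ioo hlow
      _ ≤ ∫⁻ τ : ℝ, volume {g : Fin m → ℝ | i.insertNth τ g ∈ gconeRegion S C p i} :=
          setLIntegral_le_lintegral _ _
  have hn : (0:ℝ) < (m:ℝ) + 1 := by positivity
  have h3 := ENNReal.toReal_mono hfin hmain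
  rw [ENNReal.toReal_mul, ENNReal.toReal_ofReal (div_nonneg hpi.le hn.le)] at h3
  unfold vol
  rw [div_mul_eq_mul_div, div_le_iff₀ hn] at h3
  linarith

end Vale.Agent.Lib.P248.Gen
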