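import Vale.Agent.Lib.P248.Defs

/-!
# P248, general version: corners with respect to a set `S` of symmetric coordinates

`S : Finset (Fin m)` is the set of symmetric coordinates (those whose sign change preserves the
body); the coordinates outside `S` are free.
-/

open MeasureTheory Set

namespace Vale.Agent.Lib.P248.Gen

/-- A corner in `ℝ^m` with respect to the set `S` of symmetric coordinates: a closed bounded
convex set contained in the region where all coordinates in `S` are nonnegative, closed under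
decreasing these coordinates towards zero, and containing a box around the origin (relative to
that region). -/
structure GCorner {m : ℕ} (S : Finset (Fin m)) (C : Set (Fin m → ℝ)) : Prop where
  closed : IsClosed C
  convex : Convex ℝ C
  bdd : ∃ R : ℝ, ∀ x ∈ C, ∀ i, |x i| ≤ R
  nonneg : ∀ x ∈ C, ∀ i ∈ S, 0 ≤ x i
  down : ∀ x ∈ C, ∀ y : Fin m → ℝ, (∀ i, i ∉ S → y i = x i) →
    (∀ i ∈ S, 0 ≤ y i ∧ y i ≤ x i) → y ∈ C
  box : ∃ r : ℝ, 0 < r ∧ ∀ y : Fin m → ℝ, (∀ i, |y i| ≤ r) → (∀ i ∈ S, 0 ≤ y i) → y ∈ C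

/-- The dual corner: the points with nonnegative coordinates in `S` whose pairing with every
point of `C` is at most one. -/
def gdual {m : ℕ} (S : Finset (Fin m)) (C : Set (Fin m → ℝ)) : Set (Fin m → ℝ) :=
  {y | (∀ i ∈ S, 0 ≤ y i) ∧ ∀ x ∈ C, ∑ i, x i * y i ≤ 1}

/-- The section of `C` by the coordinate hyperplane `x i = 0`, as a subset of `ℝ^m`. -/
def gfacet {m : ℕ} (C : Set (Fin (m+1) → ℝ)) (i : Fin (m+1)) : Set (Fin m → ℝ) :=
  {g | i.insertNth 0 g ∈ C}

/-- The symmetric coordinates that remain after removing the coordinate `i`. -/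
def subS {m : ℕ} (S : Finset (Fin (m+1))) (i : Fin (m+1)) : Finset (Fin m) :=
  Finset.univ.filter (fun j => i.succAbove j ∈ S)

/-- The part of `C` swept by the segments from `p` to the facet `x i = 0`. -/
def gconeRegion {m : ℕ} (S : Finset (Fin (m+1))) (C : Set (Fin (m+1) → ℝ))
    (p : Fin (m+1) → ℝ) (i : Fin (m+1)) : Set (Fin (m+1) → ℝ) :=
  {x | x ∈ C ∧ 0 < x i ∧ x i < p i ∧ ∀ j ∈ S, j ≠ i → x i * p j < x j * p i}

/-- The part of the translate `K - z` where the coordinates in `S` are nonnegative. -/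
def gcornerOf {m : ℕ} (S : Finset (Fin m)) (K : Set (Fin m → ℝ)) (z : Fin m → ℝ) :
    Set (Fin m → ℝ) :=
  {x | x + z ∈ K ∧ ∀ i ∈ S, 0 ≤ x i}

end Vale.Agent.Lib.P248.Gen
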