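import Vale.Agent.Lib.P248.Gen.Main
import Vale.Agent.Lib.P248.Gen.Num

open MeasureTheory Set

namespace Vale.Agent.Lib.P248.Gen

/-- The bound of `symCoords_bound` together with its explicit consequences for the simplex
comparison. -/
theorem symCoords_final {m : ℕ} (K : Set (Fin m → ℝ)) (hK : IsCompact K) (hc : Convex ℝ K)
    (S : Finset (Fin m))
    (hflip : ∀ i ∈ S, ∀ x ∈ K, Function.update x i (-(x i)) ∈ K)
    (z : Fin m → ℝ) (hz : z ∈ interior K) :
    (4:ℝ) ^ m * (S.card).factorial / (m.factorial : ℝ) ^ 2 ≤ vol K * vol (polarAt K z) ∧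
      (((m:ℝ) + 1) ^ (m+1) < (4:ℝ) ^ m * (S.card).factorial →
        ((m:ℝ) + 1) ^ (m+1) / (m.factorial : ℝ) ^ 2 < vol K * vol (polarAt K z)) ∧
      (9 ≤ m → m ≤ S.card + 1 →
        ((m:ℝ) + 1) ^ (m+1) / (m.factorial : ℝ) ^ 2 < vol K * vol (polarAt K z)) ∧
      (20 ≤ m → m ≤ S.card + 2 →
        ((m:ℝ) + 1) ^ (m+1) / (m.factorial : ℝ) ^ 2 < vol K * vol (polarAt K z)) := by
  obtain ⟨h1, h2⟩ := symCoords_bound K hK hc S hflip z hz
  refine ⟨h1, h2, ?_, ?_⟩
  · intro hm hs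
    apply h2
    have hfac : (m-1).factorial ≤ (S.card).factorial := Nat.factorial_le (by omega)
    have hfac' : ((m-1).factorial : ℝ) ≤ ((S.card).factorial : ℝ) := by exact_mod_cast hfac
    have h4 : (0:ℝ) < (4:ℝ) ^ m := by positivity
    calc ((m:ℝ) + 1) ^ (m+1) < (4:ℝ) ^ m * ((m-1).factorial : ℝ) := num_gap_one m hm
      _ ≤ (4:ℝ) ^ m * ((S.card).factorial : ℝ) := by
          exact mul_le_mul_of_nonneg_left hfac' h4.le
  · intro hm hs
    apply h2
    have hfac : (m-2).factorial ≤ (S.card).factorial := Nat.factorial_le (by omega)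
    have hfac' : ((m-2).factorial : ℝ) ≤ ((S.card).factorial : ℝ) := by exact_mod_cast hfac
    have h4 : (0:ℝ) < (4:ℝ) ^ m := by positivity
    calc ((m:ℝ) + 1) ^ (m+1) < (4:ℝ) ^ m * ((m-2).factorial : ℝ) := num_gap_two m hm
      _ ≤ (4:ℝ) ^ m * ((S.card).factorial : ℝ) := by
          exact mul_le_mul_of_nonneg_left hfac' h4.le

end Vale.Agent.Lib.P248.Gen
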