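import Vale.Agent.Lib.P248.Flip

open MeasureTheory Set

namespace Vale.Agent.Lib.P248.Gen

/-- Finset induction behind `gpolar_vol_axis_le`: the coordinates in `T` can be moved to zero
one at a time, each move keeping the point interior and not increasing the volume of the
polar. -/
private theorem FlipAll_aux {m : ℕ} {K : Set (Fin m → ℝ)} (hK : IsCompact K)
    (hc : Convex ℝ K) (S : Finset (Fin m))
    (hflip : ∀ i ∈ S, ∀ x ∈ K, Function.update x i (-(x i)) ∈ K)
    {z : Fin m → ℝ} (hz : z ∈ interior K) (T : Finset (Fin m)) :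
    T ⊆ S →
      ∃ z' : Fin m → ℝ, (∀ i ∈ T, z' i = 0) ∧ z' ∈ interior K ∧
        vol (polarAt K z') ≤ vol (polarAt K z) := by
  induction T using Finset.induction_on with
  | empty =>
    intro _
    exact ⟨z, fun i hi => absurd hi (Finset.notMem_empty i), hz, le_refl _⟩
  | insert j T hj ih =>
    intro hT
    obtain ⟨w, hw0, hwK, hwv⟩ := ih (fun i hi => hT (Finset.mem_insert_of_mem hi))
    have hjS : j ∈ S := hT (Finset.mem_insert_self j T)
    obtain ⟨h1, h2⟩ := polar_vol_flip_le hK hc j (hflip j hjS) hwK
    refine ⟨Function.update w j 0, ?_, h1, h2.trans hwv⟩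
    intro i hi
    by_cases hij : i = j
    · rw [hij, Function.update_self]
    · rw [Function.update_of_ne hij]
      rcases Finset.mem_insert.mp hi with h | h
      · exact absurd h hij
      · exact hw0 i h

/-- Moving the centre of polarity onto the fixed subspace of the symmetries does not increase
the volume of the polar. -/
theorem gpolar_vol_axis_le {m : ℕ} {K : Set (Fin m → ℝ)} (hK : IsCompact K)
    (hc : Convex ℝ K) (S : Finset (Fin m))
    (hflip : ∀ i ∈ S, ∀ x ∈ K, Function.update x i (-(x i)) ∈ K)
    {z : Fin m → ℝ} (hz : z ∈ interior K) :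
    ∃ z' : Fin m → ℝ, (∀ i ∈ S, z' i = 0) ∧ z' ∈ interior K ∧
      vol (polarAt K z') ≤ vol (polarAt K z) :=
  FlipAll_aux hK hc S hflip hz S (Finset.Subset.refl S)

end Vale.Agent.Lib.P248.Gen
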