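import Vale.Agent.Lib.P248.Slice
import Vale.Agent.Lib.P248.Gen.Dual

open MeasureTheory Set

namespace Vale.Agent.Lib.P248.Gen

variable {m : ℕ} {C : Set (Fin (m+1) → ℝ)}

/-- The slice of a convex set at height `τ` contains a homothetic copy of the section `x 0 = 0`,
centred at the projection of a point `p` of the set, when `τ / p 0` lies in `[0,1]`. -/
theorem freeCone_slice (hconv : Convex ℝ C) {p : Fin (m+1) → ℝ} (hp : p ∈ C)
    (hp0 : p 0 ≠ 0) {τ : ℝ} (h0 : 0 ≤ τ / p 0) (h1 : τ / p 0 ≤ 1) :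
    AffineMap.homothety ((0 : Fin (m+1)).removeNth p) (1 - τ / p 0) '' (gfacet C 0) ⊆
      {g : Fin m → ℝ | (0 : Fin (m+1)).insertNth τ g ∈ C} := by
  rintro _ ⟨g, hg, rfl⟩
  have htp : τ / p 0 * p 0 = τ := div_mul_cancel₀ τ hp0
  have hgC : ((0 : Fin (m+1)).insertNth (0 : ℝ) g : Fin (m+1) → ℝ) ∈ C := hg
  have hx : ((0 : Fin (m+1)).insertNth τ
        (AffineMap.homothety ((0 : Fin (m+1)).removeNth p) (1 - τ / p 0) g) : Fin (m+1) → ℝ)
      = (1 - τ / p 0) • ((0 : Fin (m+1)).insertNth (0 : ℝ) g : Fin (m+1) → ℝ)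
        + (τ / p 0) • p := by
    funext j
    by_cases hj : j = 0
    · subst hj
      simp only [Pi.add_apply, Pi.smul_apply, smul_eq_mul, Fin.insertNth_apply_same]
      rw [htp]
      ring
    · obtain ⟨k, rfl⟩ := Fin.exists_succAbove_eq hj
      rw [Fin.insertNth_apply_succAbove, AffineMap.homothety_apply]
      simp only [vsub_eq_sub, vadd_eq_add, Pi.add_apply, Pi.smul_apply, Pi.sub_apply,
        smul_eq_mul, Fin.removeNth, Fin.insertNth_apply_succAbove]
      ring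
  show ((0 : Fin (m+1)).insertNth τ
        (AffineMap.homothety ((0 : Fin (m+1)).removeNth p) (1 - τ / p 0) g) : Fin (m+1) → ℝ) ∈ C
  rw [hx]
  exact hconv hgC hp (by linarith) h0 (by ring)

/-- The integral of the cone profile `(1 - τ/P)^m` over an interval where it is nonnegative. -/
theorem freeCone_profile (m : ℕ) {P : ℝ} (hP : P ≠ 0) {a b : ℝ} (hab : a ≤ b)
    (hnn : ∀ τ ∈ Ioo a b, 0 ≤ 1 - τ / P) :
    ∫⁻ τ in Ioo a b, ENNReal.ofReal ((1 - τ / P) ^ m)
      = ENNReal.ofReal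
          ((P / ((m:ℝ) + 1)) * ((1 - a / P) ^ (m+1) - (1 - b / P) ^ (m+1))) := by
  have hcont : Continuous (fun τ : ℝ => (1 - τ / P) ^ m) := by fun_prop
  have hnn' : 0 ≤ᵐ[volume.restrict (Ioo a b)] fun τ : ℝ => (1 - τ / P) ^ m := by
    filter_upwards [ae_restrict_mem measurableSet_Ioo] with τ hτ
    exact pow_nonneg (hnn τ hτ) m
  have hintg : Integrable (fun τ : ℝ => (1 - τ / P) ^ m) (volume.restrict (Ioo a b)) :=
    (hcont.integrableOn_Icc (a := a) (b := b)).mono_set Ioo_subset_Icc_self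
  rw [← ofReal_integral_eq_lintegral_ofReal hintg hnn']
  have hn0 : ((m:ℝ) + 1) ≠ 0 := by positivity
  have hderiv : ∀ τ ∈ uIcc a b,
      HasDerivAt (fun τ : ℝ => -(P / ((m:ℝ) + 1)) * (1 - τ / P) ^ (m+1))
        ((1 - τ / P) ^ m) τ := by
    intro τ _
    have h1 : HasDerivAt (fun τ : ℝ => 1 - τ / P) (-(1 / P)) τ := by
      have h := ((hasDerivAt_id τ).div_const P).const_sub 1
      simpa using h
    have h2 := (h1.pow (m+1)).const_mul (-(P / ((m:ℝ) + 1)))
    refine h2.congr_deriv ?_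
    push_cast
    field_simp
  have hval : ∫ τ in Ioo a b, (1 - τ / P) ^ m
      = (P / ((m:ℝ) + 1)) * ((1 - a / P) ^ (m+1) - (1 - b / P) ^ (m+1)) := by
    rw [← integral_Ioc_eq_integral_Ioo, ← intervalIntegral.integral_of_le hab,
      intervalIntegral.integral_eq_sub_of_hasDerivAt hderiv (hcont.intervalIntegrable _ _)]
    ring
  rw [hval]

/-- A convex body contains the double cone over its section `x 0 = 0` with apexes `p` and `q` on
the two sides of that hyperplane. -/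
theorem vol_ge_dcone (hC : GCorner ∅ C) {p q : Fin (m+1) → ℝ} (hp : p ∈ C) (hq : q ∈ C)
    (hp0 : 0 < p 0) (hq0 : q 0 < 0) :
    (p 0 - q 0) * vol (gfacet C 0) ≤ ((m:ℝ) + 1) * vol C := by
  have hmeas : MeasurableSet C := gcorner_measurable hC
  have hfin : volume C ≠ ⊤ := gcorner_volume_ne_top hC
  have hslice := volume_eq_lintegral_slice 0 hmeas
  have hm : (0:ℝ) < (m:ℝ) + 1 := by positivity
  have hlowp : ∀ τ ∈ Ioo (0:ℝ) (p 0),
      ENNReal.ofReal ((1 - τ / p 0) ^ m) * volume (gfacet C 0)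
        ≤ volume {g : Fin m → ℝ | (0 : Fin (m+1)).insertNth τ g ∈ C} := by
    intro τ hτ
    have ht0 : 0 ≤ τ / p 0 := (div_pos hτ.1 hp0).le
    have ht1 : τ / p 0 ≤ 1 := ((div_lt_one hp0).mpr hτ.2).le
    have h1 := freeCone_slice hC.convex hp hp0.ne' ht0 ht1
    have h2 := measure_mono (μ := volume) h1
    rw [Measure.addHaar_image_homothety, Module.finrank_fin_fun] at h2
    have hnn : 0 ≤ (1 - τ / p 0) ^ m := pow_nonneg (by linarith) m
    rw [abs_of_nonneg hnn] at h2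
    exact h2
  have hlowq : ∀ τ ∈ Ioo (q 0) (0:ℝ),
      ENNReal.ofReal ((1 - τ / q 0) ^ m) * volume (gfacet C 0)
        ≤ volume {g : Fin m → ℝ | (0 : Fin (m+1)).insertNth τ g ∈ C} := by
    intro τ hτ
    have ht0 : 0 ≤ τ / q 0 := (div_pos_of_neg_of_neg hτ.2 hq0).le
    have ht1 : τ / q 0 ≤ 1 := by
      rw [div_le_one_of_neg hq0]
      exact hτ.1.le
    have h1 := freeCone_slice hC.convex hq hq0.ne ht0 ht1
    have h2 := measure_mono (μ := volume) h1
    rw [Measure.addHaar_image_homothety, Module.finrank_fin_fun] at h2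
    have hnn : 0 ≤ (1 - τ / q 0) ^ m := pow_nonneg (by linarith) m
    rw [abs_of_nonneg hnn] at h2
    exact h2
  have hprofp : ∫⁻ τ in Ioo (0:ℝ) (p 0), ENNReal.ofReal ((1 - τ / p 0) ^ m)
      = ENNReal.ofReal (p 0 / ((m:ℝ) + 1)) := by
    rw [freeCone_profile m hp0.ne' hp0.le (fun τ hτ => by
      have h : τ / p 0 < 1 := (div_lt_one hp0).mpr hτ.2
      linarith)]
    congr 1
    rw [div_self hp0.ne']
    simp
  have hprofq : ∫⁻ τ in Ioo (q 0) (0:ℝ), ENNReal.ofReal ((1 - τ / q 0) ^ m)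
      = ENNReal.ofReal (-q 0 / ((m:ℝ) + 1)) := by
    rw [freeCone_profile m hq0.ne hq0.le (fun τ hτ => by
      have h : τ / q 0 ≤ 1 := by
        rw [div_le_one_of_neg hq0]
        exact hτ.1.le
      linarith)]
    congr 1
    rw [div_self hq0.ne]
    simp
    ring
  have hmeasfp : Measurable (fun τ : ℝ => ENNReal.ofReal ((1 - τ / p 0) ^ m)) := by fun_prop
  have hmeasfq : Measurable (fun τ : ℝ => ENNReal.ofReal ((1 - τ / q 0) ^ m)) := by fun_prop
  have hdisj : Disjoint (Ioo (q 0) (0:ℝ)) (Ioo (0:ℝ) (p 0)) := by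
    rw [Set.disjoint_left]
    intro τ h1 h2
    exact absurd h1.2 (not_lt.mpr h2.1.le)
  have hmain : ENNReal.ofReal ((p 0 - q 0) / ((m:ℝ) + 1)) * volume (gfacet C 0)
      ≤ volume C := by
    have e : ENNReal.ofReal ((p 0 - q 0) / ((m:ℝ) + 1))
        = ENNReal.ofReal (-q 0 / ((m:ℝ) + 1)) + ENNReal.ofReal (p 0 / ((m:ℝ) + 1)) := by
      rw [← ENNReal.ofReal_add (div_nonneg (by linarith) hm.le) (div_nonneg hp0.le hm.le)]
      congr 1
      ring
    rw [e, add_mul, ← hprofq, ← hprofp, ← lintegral_mul_const _ hmeasfq,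
      ← lintegral_mul_const _ hmeasfp, hslice]
    calc (∫⁻ τ in Ioo (q 0) (0:ℝ), ENNReal.ofReal ((1 - τ / q 0) ^ m) * volume (gfacet C 0))
          + ∫⁻ τ in Ioo (0:ℝ) (p 0), ENNReal.ofReal ((1 - τ / p 0) ^ m) * volume (gfacet C 0)
        ≤ (∫⁻ τ in Ioo (q 0) (0:ℝ),
              volume {g : Fin m → ℝ | (0 : Fin (m+1)).insertNth τ g ∈ C})
          + ∫⁻ τ in Ioo (0:ℝ) (p 0),
              volume {g : Fin m → ℝ | (0 : Fin (m+1)).insertNth τ g ∈ C} :=
          add_le_add (setLIntegral_mono' measurableSet_Ioo hlowq)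
            (setLIntegral_mono' measurableSet_Ioo hlowp)
      _ = ∫⁻ τ in Ioo (q 0) (0:ℝ) ∪ Ioo (0:ℝ) (p 0),
            volume {g : Fin m → ℝ | (0 : Fin (m+1)).insertNth τ g ∈ C} :=
          (lintegral_union measurableSet_Ioo hdisj).symm
      _ ≤ ∫⁻ τ : ℝ, volume {g : Fin m → ℝ | (0 : Fin (m+1)).insertNth τ g ∈ C} :=
          setLIntegral_le_lintegral _ _
  have h3 := ENNReal.toReal_mono hfin hmain
  rw [ENNReal.toReal_mul, ENNReal.toReal_ofReal (div_nonneg (by linarith) hm.le)] at h3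
  unfold vol
  rw [div_mul_eq_mul_div, div_le_iff₀ hm] at h3
  linarith

end Vale.Agent.Lib.P248.Gen
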