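import Vale.Agent.Lib.P248.Gen.Axis
import Vale.Agent.Lib.P248.Gen.FlipAll

open MeasureTheory Set

namespace Vale.Agent.Lib.P248.Gen

/-- **Volume product of convex bodies with `s` coordinate hyperplane symmetries**:
`|K| |(K - z)°| ≥ 4^m s! / (m!)^2` for every interior point `z`. -/
theorem symCoords_bound {m : ℕ} (K : Set (Fin m → ℝ)) (hK : IsCompact K) (hc : Convex ℝ K)
    (S : Finset (Fin m))
    (hflip : ∀ i ∈ S, ∀ x ∈ K, Function.update x i (-(x i)) ∈ K)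
    (z : Fin m → ℝ) (hz : z ∈ interior K) :
    (4:ℝ) ^ m * (S.card).factorial / (m.factorial : ℝ) ^ 2 ≤ vol K * vol (polarAt K z) ∧
      (((m:ℝ) + 1) ^ (m+1) < (4:ℝ) ^ m * (S.card).factorial →
        ((m:ℝ) + 1) ^ (m+1) / (m.factorial : ℝ) ^ 2 < vol K * vol (polarAt K z)) := by
  obtain ⟨z', hz0, hz', hle⟩ := gpolar_vol_axis_le hK hc S hflip hz
  have h1 := gaxis_bound K hK hc S hflip z' hz0 hz'
  have hv : 0 ≤ vol K := ENNReal.toReal_nonneg
  have h2 : (4:ℝ) ^ m * (S.card).factorial / (m.factorial : ℝ) ^ 2 ≤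
      vol K * vol (polarAt K z) :=
    le_trans h1 (mul_le_mul_of_nonneg_left hle hv)
  refine ⟨h2, fun hlt => lt_of_lt_of_le ?_ h2⟩
  have hpos : (0:ℝ) < (m.factorial : ℝ) ^ 2 := by positivity
  exact div_lt_div_of_pos_right hlt hpos

end Vale.Agent.Lib.P248.Gen
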