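import Vale.Agent.Lib.P248.Gen.Cone

open MeasureTheory Set

namespace Vale.Agent.Lib.P248.Gen

/-- The induction step that removes a symmetric coordinate. -/
theorem gcorner_stepS {m : ℕ}
    (ih : ∀ (S' : Finset (Fin m)) (C' : Set (Fin m → ℝ)), GCorner S' C' →
      (4:ℝ) ^ m * (S'.card).factorial / (4 ^ S'.card * (m.factorial : ℝ) ^ 2) ≤
        vol C' * vol (gdual S' C'))
    (S : Finset (Fin (m+1))) (hS : S.Nonempty) (C : Set (Fin (m+1) → ℝ)) (hC : GCorner S C) :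
    (4:ℝ) ^ (m+1) * (S.card).factorial / (4 ^ S.card * ((m+1).factorial : ℝ) ^ 2) ≤
      vol C * vol (gdual S C) := by
  have hD : GCorner S (gdual S C) := gcorner_dual hC
  have hV : 0 < vol C := gcorner_vol_pos hC
  have hW : 0 < vol (gdual S C) := gcorner_vol_pos hD
  have hN : (0:ℝ) < (m:ℝ) + 1 := by positivity
  have hNV : 0 < ((m:ℝ) + 1) * vol C := mul_pos hN hV
  have hvol0 : ∀ K : Set (Fin m → ℝ), 0 ≤ vol K := fun K => ENNReal.toReal_nonneg
  obtain ⟨k, hk⟩ : ∃ k : ℕ, S.card = k + 1 :=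
    Nat.exists_eq_succ_of_ne_zero (Finset.card_ne_zero.mpr hS)
  have hsub : ∀ i ∈ S, (subS S i).card = k := by
    intro i hi
    have h := card_subS (S := S) i hi
    omega
  -- the point of the dual given by the facet volumes
  obtain ⟨w, hw⟩ : ∃ w : Fin (m+1) → ℝ,
      w = fun i => if i ∈ S then vol (gfacet C i) / (((m:ℝ) + 1) * vol C) else 0 := ⟨_, rfl⟩
  have hwS : ∀ i ∈ S, w i = vol (gfacet C i) / (((m:ℝ) + 1) * vol C) := by
    intro i hi
    rw [hw]
    simp only [if_pos hi]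
  have hwD : w ∈ gdual S C := by
    refine ⟨fun i hi => ?_, fun x hx => ?_⟩
    · rw [hwS i hi]
      exact div_nonneg (hvol0 _) hNV.le
    · have hterm : ∀ i : Fin (m+1), x i * w i =
          (if i ∈ S then x i * vol (gfacet C i) else 0) / (((m:ℝ) + 1) * vol C) := by
        intro i
        by_cases hi : i ∈ S
        · rw [hwS i hi]
          simp only [if_pos hi]
          rw [mul_div_assoc]
        · rw [hw]
          simp only [if_neg hi, mul_zero, zero_div]
      rw [Finset.sum_congr rfl (fun i _ => hterm i), ← Finset.sum_div, div_le_one hNV,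
        Finset.sum_ite_mem, Finset.univ_inter]
      exact gcone_ineq hC hx
  have hcone := gcone_ineq hD hwD
  -- lower bound for each term, by the induction hypothesis on the facets
  obtain ⟨c, hc⟩ : ∃ c : ℝ,
      c = (4:ℝ) ^ m * (k.factorial : ℝ) / (4 ^ k * (m.factorial : ℝ) ^ 2) := ⟨_, rfl⟩
  have hterm : ∀ i ∈ S, c / (((m:ℝ) + 1) * vol C) ≤ w i * vol (gfacet (gdual S C) i) := by
    intro i hi
    have h1 := ih (subS S i) (gfacet C i) (gcorner_facet hC i hi)
    rw [← gfacet_gdual hC i hi, hsub i hi, ← hc] at h1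
    rw [hwS i hi, div_mul_eq_mul_div]
    exact div_le_div_of_nonneg_right h1 hNV.le
  have hsum : ∑ _i ∈ S, c / (((m:ℝ) + 1) * vol C) =
      ((k:ℝ) + 1) * (c / (((m:ℝ) + 1) * vol C)) := by
    rw [Finset.sum_const, hk, nsmul_eq_mul]
    push_cast
    ring
  have hmain : ((k:ℝ) + 1) * (c / (((m:ℝ) + 1) * vol C)) ≤
      ((m:ℝ) + 1) * vol (gdual S C) := by
    rw [← hsum]
    exact le_trans (Finset.sum_le_sum hterm) hcone
  -- algebra
  have hfm : (((m+1).factorial : ℕ) : ℝ) = ((m:ℝ) + 1) * (m.factorial : ℝ) := by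
    rw [Nat.factorial_succ]
    push_cast
    ring
  have hfk : (((k+1).factorial : ℕ) : ℝ) = ((k:ℝ) + 1) * (k.factorial : ℝ) := by
    rw [Nat.factorial_succ]
    push_cast
    ring
  have hf1 : (0:ℝ) < (m.factorial : ℝ) := Nat.cast_pos.mpr (Nat.factorial_pos _)
  have hk1 : (0:ℝ) < (k.factorial : ℝ) := Nat.cast_pos.mpr (Nat.factorial_pos _)
  have h4k : (0:ℝ) < (4:ℝ) ^ k := by positivity
  rw [hk, hfm, hfk]
  have e1 : (4:ℝ) ^ (m+1) * (((k:ℝ) + 1) * (k.factorial : ℝ)) /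
        (4 ^ (k+1) * (((m:ℝ) + 1) * (m.factorial : ℝ)) ^ 2)
      = ((k:ℝ) + 1) * c / ((m:ℝ) + 1) ^ 2 := by
    rw [hc, pow_succ, pow_succ]
    field_simp
  rw [e1, div_le_iff₀ (by positivity)]
  have h2 : ((k:ℝ) + 1) * (c / (((m:ℝ) + 1) * vol C)) =
      ((k:ℝ) + 1) * c / (((m:ℝ) + 1) * vol C) := by
    ring
  rw [h2, div_le_iff₀ hNV] at hmain
  calc ((k:ℝ) + 1) * c ≤ ((m:ℝ) + 1) * vol (gdual S C) * (((m:ℝ) + 1) * vol C) := hmain
    _ = vol C * vol (gdual S C) * ((m:ℝ) + 1) ^ 2 := by ring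

end Vale.Agent.Lib.P248.Gen
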